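import Mathlib

/-!
The last two terms of the Gersten complex of a ring `A` in degree `k + 1`, written out by hand:
the free abelian group on the primes of height `k + 1`, and the images in it of the units
of the residue fields at primes of height `k` under the order maps.
-/

namespace Vale.Agent.P178

variable (A : Type*) [CommRing A]

/-- The points of codimension `n` of `Spec A`, i.e. the primes of height `n`. -/
abbrev CodimPoints (n : ℕ) := {P : PrimeSpectrum A // P.asIdeal.height = n}

variable {A}

/-- Order of vanishing at `P` of the image of `f` in the quotient by `Q`: the length of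
`A_P / (Q A_P + f A_P)` as a module over `A_P / Q A_P`. -/
noncomputable def ordAlong (P : PrimeSpectrum A) (Q : Ideal A) (f : A) : ℕ∞ :=
  Ring.ord (Localization.AtPrime P.asIdeal ⧸
      Q.map (algebraMap A (Localization.AtPrime P.asIdeal)))
    (Ideal.Quotient.mk _ (algebraMap A (Localization.AtPrime P.asIdeal) f))

variable (A)

/-- Divisors on primes of height `k` of elements with nonzero image in their residue fields. -/
def divisors (k : ℕ) : Set (CodimPoints A (k + 1) →₀ ℤ) :=
  {z | ∃ (Q : CodimPoints A k) (f : A), f ∉ Q.1.asIdeal ∧
    ∀ P : CodimPoints A (k + 1), z P = ((ordAlong P.1 Q.1.asIdeal f).toNat : ℤ)}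

/-- The group of cycles rationally equivalent to zero: the image of the residue map. -/
noncomputable def rationallyTrivial (k : ℕ) : AddSubgroup (CodimPoints A (k + 1) →₀ ℤ) :=
  AddSubgroup.closure (divisors A k)

end Vale.Agent.P178
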