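import Mathlib

namespace Vale.Agent.P178

universe u

variable {A : Type u} [CommRing A] (P : Ideal A) [P.IsPrime]

/-- Length of the localisation of `M` at the prime `P`. -/
noncomputable def locLen (M : Type*) [AddCommGroup M] [Module A M] : ℕ∞ :=
  Module.length (Localization.AtPrime P) (LocalizedModule.AtPrime P M)

variable {M N L : Type*} [AddCommGroup M] [Module A M] [AddCommGroup N] [Module A N]
  [AddCommGroup L] [Module A L]

theorem locLen_exact (f : N →ₗ[A] M) (g : M →ₗ[A] L) (hf : Function.Injective f)
    (hg : Function.Surjective g) (h : Function.Exact f g) :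
    locLen P M = locLen P N + locLen P L :=
  Module.length_eq_add_of_exact (LocalizedModule.map P.primeCompl f)
    (LocalizedModule.map P.primeCompl g) (LocalizedModule.map_injective _ f hf)
    (LocalizedModule.map_surjective _ g hg) (LocalizedModule.map_exact _ f g h)

theorem locLen_zero (h : ∀ m : M, ∃ t ∈ P.primeCompl, t • m = 0) : locLen P M = 0 := by
  have : Subsingleton (LocalizedModule.AtPrime P M) := LocalizedModule.subsingleton_iff.2 h
  exact Module.length_eq_zero

theorem locLen_congr (e : M ≃ₗ[A] N) : locLen P M = locLen P N := by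
  have h := locLen_exact P (0 : PUnit.{1} →ₗ[A] M) e.toLinearMap
    (fun a b _ => Subsingleton.elim a b) e.surjective
    (by
      intro m
      constructor
      · intro hm; exact ⟨0, by simpa using (e.map_eq_zero_iff.1 hm).symm⟩
      · rintro ⟨_, rfl⟩; simp)
  rw [h, locLen_zero P (M := PUnit.{1}) fun m => ⟨1, P.primeCompl.one_mem, Subsingleton.elim _ _⟩,
    zero_add]

theorem locLen_le_of_surjective (g : M →ₗ[A] L) (hg : Function.Surjective g) :
    locLen P L ≤ locLen P M :=
  Module.length_le_of_surjective (LocalizedModule.map P.primeCompl g)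
    (LocalizedModule.map_surjective _ g hg)

theorem locLen_pi_fin (s : ℕ) : locLen P (Fin s → M) = s * locLen P M := by
  induction s with
  | zero =>
    rw [locLen_zero P fun m => ⟨1, P.primeCompl.one_mem, Subsingleton.elim _ _⟩]
    simp
  | succ s ih =>
    have e : (Fin (s + 1) → M) ≃ₗ[A] (M × (Fin s → M)) :=
      (Fin.consLinearEquiv A fun _ : Fin (s + 1) => M).symm
    rw [locLen_congr P e, locLen_exact P (LinearMap.inl A M (Fin s → M))
      (LinearMap.snd A M (Fin s → M)) LinearMap.inl_injective LinearMap.snd_surjective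
      Function.Exact.inl_snd, ih]
    push_cast
    ring

theorem locLen_quotient (J : Ideal A) :
    locLen P (A ⧸ J) = Module.length (Localization.AtPrime P)
      (Localization.AtPrime P ⧸ J.map (algebraMap A (Localization.AtPrime P))) := by
  let S := Localization.AtPrime P
  let f : A ⧸ J →ₗ[A] S ⧸ (Submodule.localized' S P.primeCompl (Algebra.linearMap A S) J) :=
    Submodule.toLocalizedQuotient' S P.primeCompl (Algebra.linearMap A S) J
  have e := (IsLocalizedModule.iso P.primeCompl f).extendScalarsOfIsLocalization P.primeCompl S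
  have hJ : Submodule.localized' S P.primeCompl (Algebra.linearMap A S) J
      = J.map (algebraMap A S) := by
    rw [Submodule.localized'_eq_span]
    rfl
  exact e.length_eq.trans (by rw [hJ])

theorem locLen_quotient_eq_ord (Q : Ideal A) (c : A) :
    locLen P (A ⧸ (Q ⊔ Ideal.span {c})) =
      Ring.ord (Localization.AtPrime P ⧸ Q.map (algebraMap A (Localization.AtPrime P)))
        (Ideal.Quotient.mk _ (algebraMap A (Localization.AtPrime P) c)) := by
  rw [locLen_quotient, Ideal.map_sup, Ideal.map_span, Set.image_singleton, Ring.ord]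
  set S := Localization.AtPrime P
  set Q' := Q.map (algebraMap A S)
  set x := algebraMap A S c
  have e := DoubleQuot.quotQuotEquivQuotSupₐ S Q' (Ideal.span {x})
  rw [← e.toLinearEquiv.length_eq]
  have h1 : (Ideal.span {x}).map (Ideal.Quotient.mkₐ S Q') =
      Ideal.span {Ideal.Quotient.mk Q' x} := by
    rw [Ideal.map_span, Set.image_singleton]
    rfl
  rw [h1]
  exact Module.length_eq_of_surjective Ideal.Quotient.mk_surjective

theorem locLen_quotient_ne_top [IsNoetherianRing A] (J : Ideal A)
    (h : ∀ p : Ideal A, p.IsPrime → J ≤ p → p ≤ P → p = P) :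
    locLen P (A ⧸ J) ≠ ⊤ := by
  rw [locLen_quotient]
  set S := Localization.AtPrime P
  set J' := J.map (algebraMap A S)
  have hdim : Ring.KrullDimLE 0 (S ⧸ J') := by
    refine Ring.KrullDimLE.mk₀ fun p hp => ?_
    have hp' : (p.comap (Ideal.Quotient.mk J')).IsPrime := inferInstance
    have hle : (p.comap (Ideal.Quotient.mk J')).comap (algebraMap A S) ≤ P := by
      have := Ideal.comap_mono (f := algebraMap A S)
        (IsLocalRing.le_maximalIdeal hp'.ne_top)
      exact this.trans (IsLocalization.AtPrime.under_maximalIdeal S P).le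
    have hge : J ≤ (p.comap (Ideal.Quotient.mk J')).comap (algebraMap A S) := by
      intro x hx
      have h0 : Ideal.Quotient.mk J' (algebraMap A S x) = 0 :=
        Ideal.Quotient.eq_zero_iff_mem.2 (Ideal.mem_map_of_mem _ hx)
      simp [Ideal.mem_comap, h0]
    have heq := h _ inferInstance hge hle
    have hmax : p.comap (Ideal.Quotient.mk J') = IsLocalRing.maximalIdeal S := by
      refine (IsLocalization.map_under P.primeCompl S (p.comap (Ideal.Quotient.mk J'))).symm.trans ?_
      exact (congrArg (Ideal.map (algebraMap A S)) heq).trans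
        Localization.AtPrime.map_eq_maximalIdeal
    have : (p.comap (Ideal.Quotient.mk J')).IsMaximal := hmax ▸ inferInstance
    have h2 := Ideal.map_eq_top_or_isMaximal_of_surjective (Ideal.Quotient.mk J')
      Ideal.Quotient.mk_surjective this
    rw [Ideal.map_comap_of_surjective _ Ideal.Quotient.mk_surjective] at h2
    exact h2.resolve_left hp.ne_top
  have : IsArtinianRing (S ⧸ J') := isArtinianRing_iff_krullDimLE_zero.2 hdim
  rw [Module.length_eq_of_surjective (S := S) (R := S ⧸ J') Ideal.Quotient.mk_surjective]
  exact Module.length_ne_top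

theorem locLen_quotient_self : locLen P (A ⧸ P) = 1 := by
  rw [locLen_quotient, Localization.AtPrime.map_eq_maximalIdeal, Module.length_eq_one_iff,
    isSimpleModule_iff_isCoatom]
  exact (IsLocalRing.maximalIdeal.isMaximal _).out

theorem locLen_ne_top_of_finite [IsNoetherianRing A] [Module.Finite A M] (J : Ideal A)
    (hJ : ∀ x ∈ J, ∀ m : M, x • m = 0)
    (h : ∀ p : Ideal A, p.IsPrime → J ≤ p → p ≤ P → p = P) :
    locLen P M ≠ ⊤ := by
  obtain ⟨s, g, hg⟩ := Module.Finite.exists_fin' A M
  let g' : (Fin s → A ⧸ J) →ₗ[A] M := LinearMap.lsum A (fun _ : Fin s => A ⧸ J) A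
    fun i => J.liftQ (LinearMap.toSpanSingleton A M (g (Pi.single i 1))) fun x hx => by
      simp [hJ x hx]
  have hg' : Function.Surjective g' := by
    intro m
    obtain ⟨c, rfl⟩ := hg m
    refine ⟨fun i => Submodule.Quotient.mk (c i), ?_⟩
    have : g c = ∑ i, c i • g (Pi.single i 1) := by
      conv_lhs => rw [pi_eq_sum_univ' c]
      simp
    rw [this]
    simp only [g', LinearMap.lsum_apply, LinearMap.sum_apply, LinearMap.comp_apply,
      LinearMap.proj_apply]
    exact Finset.sum_congr rfl fun i _ => rfl
  refine ne_top_of_le_ne_top ?_ (locLen_le_of_surjective P g' hg')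
  rw [locLen_pi_fin]
  exact WithTop.mul_ne_top (ENat.natCast_ne_top s) (locLen_quotient_ne_top P J h)

end Vale.Agent.P178
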