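import Vale.Agent.P178.Defs
import Vale.Agent.P178.Len

namespace Vale.Agent.P178

open Polynomial

universe u

variable {A : Type u} [CommRing A]

section General

variable (P : Ideal A) [P.IsPrime]
variable {M N X : Type*} [AddCommGroup M] [Module A M] [AddCommGroup N] [Module A N]
  [AddCommGroup X] [Module A X]

theorem coker_comp (a : N →ₗ[A] M) (b : X →ₗ[A] N) (ha : Function.Injective a) :
    locLen P (M ⧸ LinearMap.range (a ∘ₗ b)) =
      locLen P (N ⧸ LinearMap.range b) + locLen P (M ⧸ LinearMap.range a) := by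
  have hle : LinearMap.range b ≤ (LinearMap.range (a ∘ₗ b)).comap a := by
    rintro _ ⟨x, rfl⟩; exact ⟨x, rfl⟩
  refine locLen_exact P ((LinearMap.range b).mapQ (LinearMap.range (a ∘ₗ b)) a hle)
    (Submodule.factor (LinearMap.range_comp_le_range b a)) ?_ (Submodule.factor_surjective _) ?_
  · rw [injective_iff_map_eq_zero]
    intro q hq
    obtain ⟨n, rfl⟩ := Submodule.Quotient.mk_surjective _ q
    rw [Submodule.mapQ_apply, Submodule.Quotient.mk_eq_zero] at hq
    obtain ⟨x, hx⟩ := hq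
    rw [Submodule.Quotient.mk_eq_zero]
    exact ⟨x, ha hx⟩
  · intro q
    obtain ⟨m, rfl⟩ := Submodule.Quotient.mk_surjective _ q
    constructor
    · intro h
      replace h : (Submodule.Quotient.mk m : M ⧸ LinearMap.range a) = 0 := h
      rw [Submodule.Quotient.mk_eq_zero] at h
      obtain ⟨n, rfl⟩ := h
      exact ⟨Submodule.Quotient.mk n, rfl⟩
    · rintro ⟨y, hy⟩
      obtain ⟨n, rfl⟩ := Submodule.Quotient.mk_surjective _ y
      rw [← hy]
      exact (Submodule.Quotient.mk_eq_zero _).2 ⟨n, rfl⟩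

theorem coker_invariant (j : N →ₗ[A] M) (g : M →ₗ[A] M) (g0 : N →ₗ[A] N)
    (hj : Function.Injective j) (hg : Function.Injective g) (h : g ∘ₗ j = j ∘ₗ g0)
    (hfin : locLen P (M ⧸ LinearMap.range j) ≠ ⊤) :
    locLen P (M ⧸ LinearMap.range g) = locLen P (N ⧸ LinearMap.range g0) := by
  have h1 := coker_comp P g j hg
  have h2 := coker_comp P j g0 hj
  rw [h, h2, add_comm (locLen P (M ⧸ LinearMap.range j))] at h1
  exact ((WithTop.add_right_inj hfin).1 h1).symm

end General

theorem no_prime_between [IsNoetherianRing A] {k : ℕ} {Q P : Ideal A} [Q.IsPrime] [P.IsPrime]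
    (hQ : Q.height = k) (hP : P.height = (k + 1 : ℕ)) {f : A} (hf : f ∉ Q) :
    ∀ p : Ideal A, p.IsPrime → Q ⊔ Ideal.span {f} ≤ p → p ≤ P → p = P := by
  intro p hp hle hpP
  by_contra hne
  have h1 : Q < p := lt_of_le_of_ne (le_sup_left.trans hle) fun h => hf (h ▸
    hle (Ideal.mem_sup_right (Ideal.subset_span rfl)))
  have h2 := Ideal.height_add_one_le_of_lt_of_isPrime h1
  have h3 := Ideal.height_add_one_le_of_lt_of_isPrime (lt_of_le_of_ne hpP hne)
  rw [hQ] at h2
  have h4 : ((k + 1 + 1 : ℕ) : ℕ∞) ≤ ((k + 1 : ℕ) : ℕ∞) := by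
    rw [← hP]
    refine le_trans ?_ h3
    push_cast
    gcongr
  rw [Nat.cast_le] at h4
  omega

theorem exists_divisor [IsNoetherianRing A] {k : ℕ} (Q : CodimPoints A k) (f : A)
    (hf : f ∉ Q.1.asIdeal) :
    ∃ z ∈ rationallyTrivial A k, ∀ P : CodimPoints A (k + 1),
      z P = ((locLen P.1.asIdeal (A ⧸ (Q.1.asIdeal ⊔ Ideal.span {f}))).toNat : ℤ) := by
  classical
  set J := Q.1.asIdeal ⊔ Ideal.span {f}
  have hfin : {P : CodimPoints A (k + 1) |
      ((locLen P.1.asIdeal (A ⧸ J)).toNat : ℤ) ≠ 0}.Finite := by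
    have hm := (Ideal.finite_minimalPrimes_of_isNoetherianRing A J)
    refine Set.Finite.subset (hm.preimage (f := fun P : CodimPoints A (k + 1) => P.1.asIdeal)
      fun a _ b _ h => Subtype.ext (PrimeSpectrum.ext h)) fun P hP => ?_
    simp only [Set.mem_ofPred_eq] at hP
    have hle : J ≤ P.1.asIdeal := by
      by_contra hle
      obtain ⟨t, ht, htP⟩ := SetLike.not_le_iff_exists.1 hle
      apply hP
      rw [locLen_zero P.1.asIdeal fun m => ⟨t, htP, by
        obtain ⟨a, rfl⟩ := Submodule.Quotient.mk_surjective _ m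
        rw [← Submodule.Quotient.mk_smul, Submodule.Quotient.mk_eq_zero]
        exact J.mul_mem_right _ ht⟩]
      simp
    refine ⟨⟨P.1.isPrime, hle⟩, fun p hp hpP => ?_⟩
    exact (no_prime_between Q.2 P.2 hf p hp.1 hp.2 hpP).ge
  refine ⟨Finsupp.ofSupportFinite
    (fun P : CodimPoints A (k + 1) => ((locLen P.1.asIdeal (A ⧸ J)).toNat : ℤ)) hfin,
    AddSubgroup.subset_closure ⟨Q, f, hf, fun P => ?_⟩, fun P => rfl⟩
  simp only [ordAlong, ← locLen_quotient_eq_ord]
  rfl

section MinPoly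

variable {D S : Type*} [CommRing D] [IsDomain D] [CommRing S] [IsDomain S] [Algebra D S]
  [Algebra.IsIntegral D S] [Module.IsTorsionFree D S]

theorem exists_minimal_poly (x : S) :
    ∃ p : D[X], p ≠ 0 ∧ aeval x p = 0 ∧
      ∀ q : D[X], q ≠ 0 → aeval x q = 0 → p.natDegree ≤ q.natDegree := by
  classical
  have h : ∃ n, ∃ p : D[X], p ≠ 0 ∧ aeval x p = 0 ∧ p.natDegree = n := by
    obtain ⟨p, hp, hp0⟩ := Algebra.IsIntegral.isIntegral (R := D) x
    exact ⟨_, p, hp.ne_zero, hp0, rfl⟩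
  obtain ⟨p, hp, hp0, hn⟩ := Nat.find_spec h
  exact ⟨p, hp, hp0, fun q hq hq0 => hn ▸ Nat.find_min' h ⟨q, hq, hq0, rfl⟩⟩

omit [Algebra.IsIntegral D S] [IsDomain D] [Module.IsTorsionFree D S] in
theorem minimal_coeff_zero {x : S} (hx : x ≠ 0) {p : D[X]} (hp : p ≠ 0) (hp0 : aeval x p = 0)
    (hmin : ∀ q : D[X], q ≠ 0 → aeval x q = 0 → p.natDegree ≤ q.natDegree) : p.coeff 0 ≠ 0 := by
  intro h0
  have hX : p = X * p.divX := by
    conv_lhs => rw [← X_mul_divX_add p]
    rw [h0, C_0, add_zero]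
  have hd : p.divX ≠ 0 := fun h => hp (by rw [hX, h, mul_zero])
  have : aeval x p.divX = 0 := by
    rw [hX, map_mul, aeval_X] at hp0
    exact (mul_eq_zero.1 hp0).resolve_left hx
  have h2 := hmin _ hd this
  rw [natDegree_divX_eq_natDegree_tsub_one] at h2
  have : p.natDegree = 0 := by omega
  exact hd (divX_eq_zero_iff.2 (eq_C_of_natDegree_eq_zero this))

/-- A nonzero element of an integral domain extension divides a nonzero element of the base. -/
theorem exists_base_multiple (r : S) (hr : r ≠ 0) :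
    ∃ p : D[X], p.coeff 0 ≠ 0 ∧ algebraMap D S (p.coeff 0) = r * (- aeval r p.divX) := by
  obtain ⟨p, hp, hp0, hmin⟩ := exists_minimal_poly (D := D) r
  refine ⟨p, minimal_coeff_zero hr hp hp0 hmin, ?_⟩
  have h := congrArg (aeval r) (X_mul_divX_add p)
  rw [map_add, map_mul, aeval_X, aeval_C, hp0] at h
  linear_combination h

/-- After scaling, every element has a monic generator for its annihilating polynomials. -/
theorem exists_scaled (f : S) (hf : f ≠ 0) :
    ∃ (a : D) (h : D[X]), a ≠ 0 ∧ h.Monic ∧ h.coeff 0 ≠ 0 ∧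
      aeval (algebraMap D S a * f) h = 0 ∧
      ∀ q : D[X], aeval (algebraMap D S a * f) q = 0 → h ∣ q := by
  obtain ⟨p, hp, hp0, hmin⟩ := exists_minimal_poly (D := D) f
  have ha : p.leadingCoeff ≠ 0 := leadingCoeff_ne_zero.2 hp
  set g := algebraMap D S p.leadingCoeff * f
  have inj : ∀ x : D, algebraMap D S x = 0 → x = 0 := fun x =>
    (map_eq_zero_iff _ (FaithfulSMul.algebraMap_injective D S)).1
  have hg : g ≠ 0 := mul_ne_zero (fun h => ha (inj _ h)) hf
  have hhd : (integralNormalization p).natDegree = p.natDegree := natDegree_integralNormalization ..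
  have hg0 : aeval g (integralNormalization p) = 0 := integralNormalization_aeval_eq_zero hp0 inj
  have hmin' : ∀ q : D[X], q ≠ 0 → aeval g q = 0 →
      (integralNormalization p).natDegree ≤ q.natDegree := by
    intro q hq hq0
    have hcomp : (C p.leadingCoeff * X).natDegree = 1 := natDegree_C_mul_X _ ha
    have h1 : q.comp (C p.leadingCoeff * X) ≠ 0 := by
      intro h
      rcases comp_eq_zero_iff.1 h with h | ⟨_, h⟩
      · exact hq h
      · have := congrArg natDegree h
        rw [hcomp, natDegree_C] at this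
        omega
    have h2 := hmin _ h1 (by rw [aeval_comp]; simpa using hq0)
    rw [natDegree_comp, hcomp, mul_one] at h2
    rwa [hhd]
  refine ⟨_, _, ha, monic_integralNormalization hp,
    minimal_coeff_zero hg (monic_integralNormalization hp).ne_zero hg0 hmin', hg0, fun q hq => ?_⟩
  rw [← modByMonic_eq_zero_iff_dvd (monic_integralNormalization hp)]
  by_contra h
  have h1 := hmin' _ h (by
    rw [modByMonic_eq_sub_mul_div, map_sub, map_mul, hg0, hq]; simp)
  have h2 := natDegree_modByMonic_lt q (monic_integralNormalization hp) (fun h1 => by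
    simp [h1] at h)
  omega

end MinPoly

section Count

variable [IsNoetherianRing A] {k : ℕ} (Q : CodimPoints A k)
  {S : Type*} [CommRing S] [IsDomain S] [Algebra A S] [Module.Finite A S]
  [Algebra (A ⧸ Q.1.asIdeal) S] [IsScalarTower A (A ⧸ Q.1.asIdeal) S]
  [Module.IsTorsionFree (A ⧸ Q.1.asIdeal) S]

omit [IsNoetherianRing A] [IsDomain S] [Module.Finite A S]
  [Module.IsTorsionFree (A ⧸ Q.1.asIdeal) S] in
theorem ker_kill (x : A) (hx : x ∈ Q.1.asIdeal) : algebraMap A S x = 0 := by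
  rw [IsScalarTower.algebraMap_apply A (A ⧸ Q.1.asIdeal) S,
    Ideal.Quotient.algebraMap_eq, Ideal.Quotient.eq_zero_iff_mem.2 hx, map_zero]

theorem count (g : S) (h : (A ⧸ Q.1.asIdeal)[X]) (hc0 : h.coeff 0 ≠ 0) (hg : g ≠ 0)
    (hh : aeval g h = 0) (hdvd : ∀ q, aeval g q = 0 → h ∣ q) :
    ∃ (c : A) (s : ℕ), c ∉ Q.1.asIdeal ∧ ∀ P : CodimPoints A (k + 1),
      locLen P.1.asIdeal (S ⧸ LinearMap.range (LinearMap.mulLeft A g)) =
        s * locLen P.1.asIdeal (A ⧸ (Q.1.asIdeal ⊔ Ideal.span {c})) := by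
  classical
  obtain ⟨c, hc⟩ := Ideal.Quotient.mk_surjective (h.coeff 0)
  have hcQ : c ∉ Q.1.asIdeal := fun h1 => hc0 (by rw [← hc, Ideal.Quotient.eq_zero_iff_mem.2 h1])
  have : IsDomain (A ⧸ Q.1.asIdeal) := Ideal.Quotient.isDomain _
  have : Algebra.IsIntegral (A ⧸ Q.1.asIdeal) S := Algebra.IsIntegral.tower_top (R := A)
  set E := Algebra.adjoin A {g}
  have : Module.Finite E S := Module.Finite.of_restrictScalars_finite A E S
  obtain ⟨m, w, hw⟩ := Module.Finite.exists_fin (R := E) (M := S)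
  obtain ⟨s, hs, hmax⟩ := exists_maximal_linearIndepOn E w
  set n := Fintype.card s
  set v : Fin n → S := fun i => w ((Fintype.equivFin s).symm i)
  have hv : LinearIndependent E v := hs.comp _ (Fintype.equivFin s).symm.injective
  set jE : (Fin n → E) →ₗ[E] S := Fintype.linearCombination E v
  set j : (Fin n → E) →ₗ[A] S := jE.restrictScalars A
  have hj : Function.Injective j := linearIndependent_iff_injective_fintypeLinearCombination.1 hv
  have hrange : Submodule.span E (w '' s) ≤ LinearMap.range jE := by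
    rw [Submodule.span_le]
    rintro _ ⟨i, hi, rfl⟩
    refine ⟨Pi.single ((Fintype.equivFin s) ⟨i, hi⟩) 1, ?_⟩
    simp [jE, v, Fintype.linearCombination_apply_single]
  -- a common nonzero multiplier killing the cokernel
  have hmul : ∀ i, ∃ r : E, r ≠ 0 ∧ r • w i ∈ LinearMap.range jE := by
    intro i
    by_cases hi : i ∈ s
    · exact ⟨1, one_ne_zero, hrange (by rw [one_smul]; exact Submodule.subset_span ⟨i, hi, rfl⟩)⟩
    · obtain ⟨r, hr, hr'⟩ := hmax i hi
      exact ⟨r, hr, hrange hr'⟩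
  choose r hr hrw using hmul
  set R0 : E := ∏ i, r i
  have hR0 : R0 ≠ 0 := Finset.prod_ne_zero_iff.2 fun i _ => hr i
  have hR0S : (R0 : S) ≠ 0 := fun h => hR0 (Subtype.ext h)
  have hkill : ∀ x : S, R0 • x ∈ LinearMap.range jE := by
    intro x
    have : (⊤ : Submodule E S) ≤ (LinearMap.range jE).comap (LinearMap.lsmul E S R0) := by
      rw [← hw, Submodule.span_le]
      rintro _ ⟨i, rfl⟩
      obtain ⟨d, hd⟩ := Finset.dvd_prod_of_mem r (Finset.mem_univ i)
      show R0 • w i ∈ LinearMap.range jE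
      rw [show R0 = r i * d from hd, mul_comm, mul_smul]
      exact Submodule.smul_mem _ _ (hrw i)
    exact this (Submodule.mem_top (x := x))
  obtain ⟨p, hp0, hp⟩ := exists_base_multiple (D := A ⧸ Q.1.asIdeal) (R0 : S) hR0S
  obtain ⟨b, hb⟩ := Ideal.Quotient.mk_surjective (p.coeff 0)
  have hbQ : b ∉ Q.1.asIdeal := fun h1 => hp0 (by rw [← hb, Ideal.Quotient.eq_zero_iff_mem.2 h1])
  have hbx : ∀ x : S, b • x ∈ LinearMap.range j := by
    intro x
    obtain ⟨y, hy⟩ := hkill ((-aeval (R0 : S) p.divX) * x)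
    refine ⟨y, ?_⟩
    show jE y = b • x
    rw [hy, Algebra.smul_def b, IsScalarTower.algebraMap_apply A (A ⧸ Q.1.asIdeal) S,
      Ideal.Quotient.algebraMap_eq, hb, hp, Subalgebra.smul_def, smul_eq_mul, mul_assoc]
  set gE : E := ⟨g, Algebra.subset_adjoin rfl⟩
  set gm : E →ₗ[A] E := LinearMap.mulLeft A gE
  set g0 : (Fin n → E) →ₗ[A] (Fin n → E) := gm.compLeft (Fin n)
  have hcomm : LinearMap.mulLeft A g ∘ₗ j = j ∘ₗ g0 := by
    refine LinearMap.ext fun x => ?_
    show g * jE x = jE (fun i => gE * x i)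
    simp only [jE, Fintype.linearCombination_apply, Finset.mul_sum, Subalgebra.smul_def,
      smul_eq_mul, MulMemClass.coe_mul, mul_assoc]
    rfl
  -- E modulo g
  have hEk : ∀ a : A, a ∈ Q.1.asIdeal ⊔ Ideal.span {c} ↔
      algebraMap A E a ∈ LinearMap.range gm := by
    have hgq : ∀ q : A[X], aeval g q = aeval g (q.map (Ideal.Quotient.mk Q.1.asIdeal)) := fun q =>
      (aeval_map_algebraMap (A ⧸ Q.1.asIdeal) g q).symm
    have hcmem : algebraMap A E c ∈ LinearMap.range gm := by
      obtain ⟨q, hq⟩ := map_surjective _ Ideal.Quotient.mk_surjective h.divX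
      refine ⟨- (aeval gE q), Subtype.ext ?_⟩
      show g * -(((aeval gE q : E) : S)) = algebraMap A S c
      rw [aeval_subalgebra_coe, hgq, hq, IsScalarTower.algebraMap_apply A (A ⧸ Q.1.asIdeal) S,
        Ideal.Quotient.algebraMap_eq, hc]
      have h1 := congrArg (aeval g) (X_mul_divX_add h)
      rw [map_add, map_mul, aeval_X, aeval_C, hh] at h1
      linear_combination -h1
    intro a
    constructor
    · intro ha
      obtain ⟨x, hx, y, hy, rfl⟩ := Submodule.mem_sup.1 ha
      obtain ⟨t, rfl⟩ := Ideal.mem_span_singleton'.1 hy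
      have hx' : algebraMap A E x = 0 := Subtype.ext (ker_kill Q (S := S) x hx)
      rw [map_add, hx', zero_add, map_mul, ← Algebra.smul_def]
      exact Submodule.smul_mem _ _ hcmem
    · rintro ⟨e, he⟩
      have he' : g * (e : S) = algebraMap A S a := congrArg Subtype.val he
      obtain ⟨q, hq⟩ : ∃ q : A[X], aeval g q = (e : S) :=
        (Algebra.adjoin_singleton_eq_range_aeval A g).le e.2
      rw [hgq] at hq
      set q' := q.map (Ideal.Quotient.mk Q.1.asIdeal)
      obtain ⟨t, ht⟩ := hdvd (X * q' - C (Ideal.Quotient.mk Q.1.asIdeal a)) (by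
        rw [map_sub, map_mul, aeval_X, aeval_C, hq, he',
          IsScalarTower.algebraMap_apply A (A ⧸ Q.1.asIdeal) S, Ideal.Quotient.algebraMap_eq,
          sub_self])
      obtain ⟨t0, ht0⟩ := Ideal.Quotient.mk_surjective (t.coeff 0)
      have h0 := congrArg (fun r => r.coeff 0) ht
      simp only [coeff_sub, mul_coeff_zero, coeff_X_zero, zero_mul, coeff_C_zero, zero_sub,
        ← hc, ← ht0, ← map_mul] at h0
      rw [← map_neg, Ideal.Quotient.eq] at h0
      have : a = -(-a - c * t0) - c * t0 := by ring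
      rw [this]
      exact sub_mem (Ideal.mem_sup_left (neg_mem h0))
        (Ideal.mem_sup_right (Ideal.mul_mem_right _ _ (Ideal.subset_span rfl)))
  let π : A →ₗ[A] E ⧸ LinearMap.range gm := (LinearMap.range gm).mkQ ∘ₗ Algebra.linearMap A E
  have hπ : Function.Surjective π := by
    intro y
    obtain ⟨e, rfl⟩ := Submodule.Quotient.mk_surjective _ y
    obtain ⟨q, hq⟩ : ∃ q : A[X], aeval g q = (e : S) :=
      (Algebra.adjoin_singleton_eq_range_aeval A g).le e.2
    refine ⟨q.coeff 0, (Submodule.Quotient.eq _).2 ⟨- aeval gE q.divX, Subtype.ext ?_⟩⟩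
    show g * -(((aeval gE q.divX : E) : S)) = algebraMap A S (q.coeff 0) - (e : S)
    have h1 := congrArg (aeval g) (X_mul_divX_add q)
    rw [map_add, map_mul, aeval_X, aeval_C, hq] at h1
    rw [aeval_subalgebra_coe]
    linear_combination -h1
  have hker : LinearMap.ker π = Q.1.asIdeal ⊔ Ideal.span {c} := by
    ext a
    rw [hEk a, LinearMap.mem_ker]
    exact Submodule.Quotient.mk_eq_zero _
  let eE := (Submodule.quotEquivOfEq _ _ hker.symm).trans (π.quotKerEquivOfSurjective hπ)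
  let Φ : (Fin n → E) →ₗ[A] (Fin n → E ⧸ LinearMap.range gm) :=
    (LinearMap.range gm).mkQ.compLeft (Fin n)
  have hΦ : Function.Surjective Φ := fun y =>
    ⟨fun i => (Submodule.Quotient.mk_surjective _ (y i)).choose,
      funext fun i => (Submodule.Quotient.mk_surjective _ (y i)).choose_spec⟩
  have hkerΦ : LinearMap.range g0 = LinearMap.ker Φ := by
    ext x
    constructor
    · rintro ⟨y, rfl⟩
      exact funext fun i => (Submodule.Quotient.mk_eq_zero _).2 ⟨y i, rfl⟩
    · intro hx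
      have := fun i => (Submodule.Quotient.mk_eq_zero _).1 (congrFun hx i)
      choose y hy using this
      exact ⟨y, funext hy⟩
  refine ⟨c, n, hcQ, fun P => ?_⟩
  have hfin : locLen P.1.asIdeal (S ⧸ LinearMap.range j) ≠ ⊤ := by
    refine locLen_ne_top_of_finite P.1.asIdeal (Q.1.asIdeal ⊔ Ideal.span {b}) ?_
      (no_prime_between Q.2 P.2 hbQ)
    intro x hx q
    obtain ⟨y, rfl⟩ := Submodule.Quotient.mk_surjective _ q
    obtain ⟨x1, h1, x2, h2, rfl⟩ := Submodule.mem_sup.1 hx
    obtain ⟨t, rfl⟩ := Ideal.mem_span_singleton'.1 h2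
    rw [← Submodule.Quotient.mk_smul, Submodule.Quotient.mk_eq_zero, add_smul, mul_smul,
      Algebra.smul_def x1, ker_kill Q x1 h1, zero_mul, zero_add]
    exact Submodule.smul_mem _ _ (hbx y)
  rw [coker_invariant P.1.asIdeal j (LinearMap.mulLeft A g) g0 hj (mul_right_injective₀ hg) hcomm
      hfin, locLen_congr _ ((Submodule.quotEquivOfEq _ _ hkerΦ).trans
      (Φ.quotKerEquivOfSurjective hΦ)), locLen_pi_fin, ← locLen_congr _ eE]

end Count

theorem exists_norm_divisor [IsNoetherianRing A] {k : ℕ} {S : Type*} [CommRing S] [IsDomain S]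
    [Algebra A S] [Module.Finite A S] (hker : (RingHom.ker (algebraMap A S)).height = k)
    (f : S) (hf : f ≠ 0) :
    ∃ z ∈ rationallyTrivial A k, ∀ P : CodimPoints A (k + 1),
      z P = ((locLen P.1.asIdeal (S ⧸ LinearMap.range (LinearMap.mulLeft A f))).toNat : ℤ) := by
  let Q : CodimPoints A k := ⟨⟨RingHom.ker (algebraMap A S), RingHom.ker_isPrime _⟩, hker⟩
  have hQp : Q.1.asIdeal.IsPrime := Q.1.isPrime
  have : IsDomain (A ⧸ Q.1.asIdeal) := Ideal.Quotient.isDomain _
  let hom : A ⧸ Q.1.asIdeal →+* S := RingHom.kerLift (algebraMap A S)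
  let : Algebra (A ⧸ Q.1.asIdeal) S := hom.toAlgebra
  have : IsScalarTower A (A ⧸ Q.1.asIdeal) S := IsScalarTower.of_algebraMap_eq fun _ => rfl
  have : FaithfulSMul (A ⧸ Q.1.asIdeal) S :=
    (faithfulSMul_iff_algebraMap_injective _ _).2 (RingHom.kerLift_injective _)
  have : Algebra.IsIntegral (A ⧸ Q.1.asIdeal) S := Algebra.IsIntegral.tower_top (R := A)
  obtain ⟨a, h, ha, -, hh0, hh, hdvd⟩ := exists_scaled (D := A ⧸ Q.1.asIdeal) f hf
  set a' := algebraMap (A ⧸ Q.1.asIdeal) S a
  have ha' : a' ≠ 0 := fun h0 => ha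
    (FaithfulSMul.algebraMap_injective (A ⧸ Q.1.asIdeal) S (h0.trans (map_zero _).symm))
  obtain ⟨c₁, s₁, hc₁, hcount₁⟩ := count Q (a' * f) h hh0 (mul_ne_zero ha' hf) hh hdvd
  obtain ⟨c₂, s₂, hc₂, hcount₂⟩ := count Q a' (X - C a) (by simpa using ha) ha' (by simp [a'])
    (fun q hq => by
      rw [aeval_algebraMap_apply, map_eq_zero_iff _ (FaithfulSMul.algebraMap_injective _ _)] at hq
      exact dvd_iff_isRoot.2 (by rw [IsRoot.def, ← hq, coe_aeval_eq_eval]))
  obtain ⟨z₁, hz₁, hz₁'⟩ := exists_divisor Q c₁ hc₁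
  obtain ⟨z₂, hz₂, hz₂'⟩ := exists_divisor Q c₂ hc₂
  refine ⟨(s₁ : ℤ) • z₁ - (s₂ : ℤ) • z₂, sub_mem (AddSubgroup.zsmul_mem _ hz₁ _)
    (AddSubgroup.zsmul_mem _ hz₂ _), fun P => ?_⟩
  have hmul := coker_comp P.1.asIdeal (LinearMap.mulLeft A a') (LinearMap.mulLeft A f)
    (mul_right_injective₀ ha')
  rw [← LinearMap.mulLeft_mul, hcount₁ P, hcount₂ P] at hmul
  have hfin := fun (c : A) (hc : c ∉ Q.1.asIdeal) =>
    locLen_quotient_ne_top P.1.asIdeal (Q.1.asIdeal ⊔ Ideal.span {c})
      (no_prime_between Q.2 P.2 hc)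
  rw [Finsupp.sub_apply, Finsupp.smul_apply, Finsupp.smul_apply, hz₁' P, hz₂' P, smul_eq_mul,
    smul_eq_mul]
  obtain ⟨x, hx⟩ := ENat.ne_top_iff_exists.1 (hfin c₁ hc₁)
  obtain ⟨y, hy⟩ := ENat.ne_top_iff_exists.1 (hfin c₂ hc₂)
  rw [← hx, ← hy] at hmul ⊢
  generalize locLen P.1.asIdeal (S ⧸ LinearMap.range (LinearMap.mulLeft A f)) = L at hmul ⊢
  cases L using ENat.recTopCoe with
  | top =>
    rw [← Nat.cast_mul, top_add] at hmul
    exact absurd hmul (ENat.natCast_ne_top _)
  | coe l =>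
    norm_cast at hmul
    simp only [ENat.toNat_natCast]
    omega

end Vale.Agent.P178
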