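import Mathlib

namespace Vale.Agent.P178

universe u

variable {R : Type u} [CommRing R]

theorem ideal_eq_of_local [IsNoetherianRing R] {I K : Ideal R} (hKI : K ≤ I)
    (h : ∀ M : Ideal R, M.IsMaximal → I ≤ K ⊔ M * I) : K = I := by
  refine le_antisymm hKI ?_
  set N : Submodule R (R ⧸ K) := Submodule.map (Submodule.mkQ K) I
  have hnot : ∀ M : Ideal R, M.IsMaximal → ¬ N.annihilator ≤ M := by
    intro M hM hle
    have hin : N ≤ M • N := by
      rintro _ ⟨x, hx, rfl⟩
      obtain ⟨a, ha, b, hb, rfl⟩ := Submodule.mem_sup.1 (h M hM hx)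
      rw [map_add, show Submodule.mkQ K a = 0 from (Submodule.Quotient.mk_eq_zero _).2 ha, zero_add]
      rw [← Submodule.map_smul'']
      exact ⟨b, hb, rfl⟩
    obtain ⟨r, hr1, hr⟩ := Submodule.exists_sub_one_mem_and_smul_eq_zero_of_fg_of_le_smul M N
      (IsNoetherian.noetherian N) hin
    have hrM : r ∈ M := hle (Submodule.mem_annihilator.2 hr)
    exact hM.ne_top (M.eq_top_iff_one.2 (by simpa using M.sub_mem hrM hr1))
  have htop : N.annihilator = ⊤ := by
    by_contra hne
    obtain ⟨M, hM, hle⟩ := Ideal.exists_le_maximal _ hne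
    exact hnot M hM hle
  intro x hx
  have := Submodule.mem_annihilator.1 (htop ▸ Submodule.mem_top : (1 : R) ∈ N.annihilator) _
    ⟨x, hx, rfl⟩
  rw [one_smul] at this
  exact (Submodule.Quotient.mk_eq_zero _).1 this

/-- Chinese remainder theorem for finitely many families of elements of an ideal. -/
theorem crt_mem {I : Ideal R} {𝔐 : Set (Ideal R)} (hfin : 𝔐.Finite)
    (hmax : ∀ M ∈ 𝔐, M.IsMaximal) (x : Ideal R → R) (hx : ∀ M ∈ 𝔐, x M ∈ I) :
    ∃ v ∈ I, ∀ M ∈ 𝔐, v - x M ∈ M * I := by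
  classical
  have : Fintype 𝔐 := hfin.fintype
  have hco : Pairwise (Function.onFun IsCoprime (fun M : 𝔐 => (M : Ideal R))) := by
    intro a b hab
    rw [Function.onFun, Ideal.isCoprime_iff_sup_eq]
    exact (hmax _ a.2).coprime_of_ne (hmax _ b.2) fun h => hab (Subtype.ext h)
  choose e he using fun M : 𝔐 =>
    Ideal.exists_forall_sub_mem_ideal hco (fun M' => if M' = M then (1 : R) else 0)
  refine ⟨∑ M : 𝔐, e M * x M, Ideal.sum_mem _ fun M _ => I.mul_mem_left _ (hx _ M.2), ?_⟩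
  intro M hM
  rw [Finset.sum_eq_add_sum_sdiff_singleton_of_mem (Finset.mem_univ ⟨M, hM⟩), add_sub_right_comm]
  refine add_mem ?_ (Ideal.sum_mem _ fun M' hM' => ?_)
  · have h1 := he ⟨M, hM⟩ ⟨M, hM⟩
    rw [if_pos rfl] at h1
    rw [← sub_one_mul]
    exact Ideal.mul_mem_mul h1 (hx M hM)
  · have h1 := he M' ⟨M, hM⟩
    simp only [Finset.mem_sdiff, Finset.mem_singleton] at hM'
    rw [if_neg (Ne.symm hM'.2), sub_zero] at h1
    exact Ideal.mul_mem_mul h1 (hx _ M'.2)

/-- Generators from generators modulo each maximal ideal, on finitely many maximal ideals. -/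
theorem crt_family {I : Ideal R} {𝔐 : Set (Ideal R)} (hfin : 𝔐.Finite)
    (hmax : ∀ M ∈ 𝔐, M.IsMaximal) {c : ℕ}
    (h : ∀ M ∈ 𝔐, ∃ x : Fin c → R, (∀ i, x i ∈ I) ∧ I ≤ Ideal.span (Set.range x) ⊔ M * I) :
    ∃ v : Fin c → R, (∀ i, v i ∈ I) ∧ ∀ M ∈ 𝔐, I ≤ Ideal.span (Set.range v) ⊔ M * I := by
  classical
  choose x hx hI using h
  let x' : Ideal R → Fin c → R := fun M => if hM : M ∈ 𝔐 then x M hM else 0
  choose v hv hvx using fun i => crt_mem hfin hmax (fun M => x' M i) (I := I)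
    (fun M hM => by simp [x', hM, hx M hM i])
  refine ⟨v, hv, fun M hM => (hI M hM).trans (sup_le ?_ le_sup_right)⟩
  rw [Ideal.span_le]
  rintro _ ⟨i, rfl⟩
  have h1 := hvx i M hM
  simp only [x', dif_pos hM] at h1
  rw [show x M hM i = v i - (v i - x M hM i) by ring]
  exact sub_mem (Ideal.mem_sup_left (Ideal.subset_span ⟨i, rfl⟩)) (Ideal.mem_sup_right h1)

/-- In a Noetherian ring with finitely many maximal ideals, an ideal which at each maximal
ideal containing it is generated by `n + 1` elements is generated by `n + 1` elements. -/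
theorem semilocal_gens [IsNoetherianRing R] (hfin : {M : Ideal R | M.IsMaximal}.Finite)
    (I : Ideal R) {n : ℕ}
    (h : ∀ M : Ideal R, M.IsMaximal → I ≤ M →
      ∃ x : Fin (n + 1) → R, (∀ i, x i ∈ I) ∧ I ≤ Ideal.span (Set.range x) ⊔ M * I) :
    ∃ f : Fin (n + 1) → R, Ideal.span (Set.range f) = I := by
  have h' : ∀ M ∈ {M : Ideal R | M.IsMaximal}, ∃ x : Fin (n + 1) → R,
      (∀ i, x i ∈ I) ∧ I ≤ Ideal.span (Set.range x) ⊔ M * I := by
    intro M hM
    by_cases hle : I ≤ M
    · exact h M hM hle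
    · obtain ⟨a, haI, haM⟩ := SetLike.not_le_iff_exists.1 hle
      obtain ⟨u, m, hm, hum⟩ := hM.exists_inv haM
      refine ⟨fun _ => a, fun _ => haI, fun i hi => ?_⟩
      rw [show i = (i * u) * a + m * i by linear_combination -i * hum]
      exact add_mem (Ideal.mem_sup_left (Ideal.mul_mem_left _ _ (Ideal.subset_span ⟨0, rfl⟩)))
        (Ideal.mem_sup_right (Ideal.mul_mem_mul hm hi))
  obtain ⟨v, hv, hvI⟩ := crt_family hfin (fun M hM => hM) h'
  exact ⟨v, ideal_eq_of_local (Ideal.span_le.2 (Set.range_subset_iff.2 hv)) fun M hM => hvI M hM⟩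

/-- Davis' lemma. -/
theorem davis (S : Finset (Ideal R)) (hp : ∀ q ∈ S, q.IsPrime) (a : R) (J : Ideal R)
    (h : ∀ q ∈ S, a ∈ q → ¬ J ≤ q) : ∃ y ∈ J, ∀ q ∈ S, a + y ∉ q := by
  classical
  let T : Finset (Ideal R) := S.filter fun q => ∀ q' ∈ S, q ≤ q' → q = q'
  let K : Ideal R := J ⊓ (T.filter fun q => a ∉ q).inf id
  have hK : ∀ q ∈ T.filter (fun q => a ∈ q), ¬ K ≤ q := by
    intro q hq hle
    obtain ⟨hqT, haq⟩ := Finset.mem_filter.1 hq
    obtain ⟨hqS, hqmax⟩ := Finset.mem_filter.1 hqT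
    rcases ((hp q hqS).inf_le).1 hle with h1 | h1
    · exact h q hqS haq h1
    · obtain ⟨q', hq', hle'⟩ := ((hp q hqS).inf_le').1 h1
      obtain ⟨hq'T, haq'⟩ := Finset.mem_filter.1 hq'
      obtain ⟨hq'S, hq'max⟩ := Finset.mem_filter.1 hq'T
      exact haq' ((hq'max q hqS hle').symm ▸ haq)
  obtain ⟨y, hyK, hy⟩ : ∃ y ∈ K, ∀ q ∈ T.filter (fun q => a ∈ q), y ∉ q := by
    by_contra hne
    push Not at hne
    have hsub : (K : Set R) ⊆ ⋃ q ∈ ((T.filter fun q => a ∈ q) : Set (Ideal R)), (q : Set R) := by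
      intro y hy
      obtain ⟨q, hq, hyq⟩ := hne y hy
      exact Set.mem_biUnion hq hyq
    obtain ⟨q, hq, hle⟩ := (Ideal.subset_union_prime (f := fun q => q) ⊥ ⊥
      (fun q hq _ _ => hp q (Finset.mem_filter.1 (Finset.mem_filter.1 hq).1).1)).1 hsub
    exact hK q hq hle
  refine ⟨y, hyK.1, fun q hq hmem => ?_⟩
  obtain ⟨q', hq'le, hq'⟩ := Finset.exists_le_maximal S hq
  have hq'T : q' ∈ T :=
    Finset.mem_filter.2 ⟨hq'.1, fun r hr hle => le_antisymm hle (hq'.2 hr hle)⟩
  by_cases ha : a ∈ q'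
  · exact hy q' (Finset.mem_filter.2 ⟨hq'T, ha⟩)
      (by simpa using q'.sub_mem (hq'le hmem) ha)
  · have hyq : y ∈ q' := Finset.inf_le (f := id) (Finset.mem_filter.2 ⟨hq'T, ha⟩) hyK.2
    exact ha (by simpa using q'.sub_mem (hq'le hmem) hyq)

/-- Generators in general position: primes missing the ideal but containing the first `i`
generators have height at least `i`. -/
theorem generic_gens [IsNoetherianRing R] {n : ℕ} (I : Ideal R) (f : Fin n → R)
    (hf : Ideal.span (Set.range f) = I) :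
    ∀ i ≤ n, ∃ g : Fin n → R, Ideal.span (Set.range g) = I ∧
      ∀ i' ≤ i, ∀ q : Ideal R, q.IsPrime → ¬ I ≤ q → (∀ j : Fin n, (j : ℕ) < i' → g j ∈ q) →
        (i' : ℕ∞) ≤ q.height := by
  classical
  intro i
  induction i with
  | zero =>
    exact fun _ => ⟨f, hf, fun i' hi' q _ _ _ => by simp [Nat.le_zero.1 hi']⟩
  | succ i ih =>
    intro hi
    obtain ⟨g, hg, hgp⟩ := ih (Nat.le_of_succ_le hi)
    set ii : Fin n := ⟨i, hi⟩
    set L := Ideal.span (g '' {j : Fin n | (j : ℕ) < i})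
    set J := Ideal.span (g '' {j : Fin n | i < (j : ℕ)})
    set S := (Ideal.finite_minimalPrimes_of_isNoetherianRing R L).toFinset.filter fun q => ¬ I ≤ q
    have hS : ∀ q ∈ S, q ∈ L.minimalPrimes ∧ ¬ I ≤ q := fun q hq => by simpa [S] using hq
    obtain ⟨y, hyJ, hy⟩ := davis S (fun q hq => (hS q hq).1.1.1) (g ii) J fun q hq ha hJ => by
      refine (hS q hq).2 (hg ▸ Ideal.span_le.2 ?_)
      rintro _ ⟨j, rfl⟩
      rcases lt_trichotomy (j : ℕ) i with hj | hj | hj
      · exact (hS q hq).1.1.2 (Ideal.subset_span ⟨j, hj, rfl⟩)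
      · rwa [show j = ii from Fin.ext hj]
      · exact hJ (Ideal.subset_span ⟨j, hj, rfl⟩)
    set g' := Function.update g ii (g ii + y)
    have hne : ∀ j : Fin n, (j : ℕ) ≠ i → g' j = g j := fun j hj =>
      Function.update_of_ne (fun h => hj (congrArg Fin.val h)) _ _
    have hii : g' ii = g ii + y := Function.update_self ..
    have hJg : J ≤ Ideal.span (Set.range g') := by
      rw [Ideal.span_le]
      rintro _ ⟨j, hj, rfl⟩
      exact hne j (ne_of_gt hj) ▸ Ideal.subset_span ⟨j, rfl⟩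
    refine ⟨g', le_antisymm ?_ ?_, ?_⟩
    · rw [Ideal.span_le]
      rintro _ ⟨j, rfl⟩
      rw [← hg]
      by_cases hj : (j : ℕ) = i
      · rw [show j = ii from Fin.ext hj, hii]
        exact add_mem (Ideal.subset_span ⟨ii, rfl⟩)
          (Ideal.span_mono (Set.image_subset_range _ _) hyJ)
      · rw [hne j hj]; exact Ideal.subset_span ⟨j, rfl⟩
    · rw [← hg, Ideal.span_le]
      rintro _ ⟨j, rfl⟩
      by_cases hj : (j : ℕ) = i
      · rw [show j = ii from Fin.ext hj, show g ii = g' ii - y by rw [hii]; ring]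
        exact sub_mem (Ideal.subset_span ⟨ii, rfl⟩) (hJg hyJ)
      · rw [← hne j hj]; exact Ideal.subset_span ⟨j, rfl⟩
    · intro i' hi' q hq hIq hmem
      rcases Nat.lt_or_eq_of_le hi' with hlt | heq
      · exact hgp i' (Nat.le_of_lt_succ hlt) q hq hIq fun j hj =>
          hne j (by omega) ▸ hmem j hj
      · subst heq
        have hLq : L ≤ q := by
          rw [Ideal.span_le]
          rintro _ ⟨j, hj, rfl⟩
          exact hne j (ne_of_lt hj) ▸ hmem j (Nat.lt_succ_of_lt hj)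
        obtain ⟨q', hq', hle⟩ := Ideal.exists_minimalPrimes_le hLq
        have : q'.IsPrime := hq'.1.1
        have hIq' : ¬ I ≤ q' := fun h => hIq (h.trans hle)
        have hlt : q' < q := lt_of_le_of_ne hle fun h => by
          refine hy q' (by simp [S, hq', hIq']) ?_
          rw [← hii, h]
          exact hmem ii (Nat.lt_succ_self i)
        have h1 := hgp i le_rfl q' this hIq' fun j hj =>
          hq'.1.2 (Ideal.subset_span ⟨j, hj, rfl⟩)
        push_cast
        exact le_trans (by gcongr) (Ideal.height_add_one_le_of_lt_of_isPrime hlt)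

/-- A finite algebra over a local ring has finitely many maximal ideals. -/
theorem finite_maximals (A : Type*) [CommRing A] [IsLocalRing A] [Algebra A R] [Module.Finite A R]
    [IsNoetherianRing R] : {M : Ideal R | M.IsMaximal}.Finite := by
  refine (Ideal.finite_minimalPrimes_of_isNoetherianRing R
    ((IsLocalRing.maximalIdeal A).map (algebraMap A R))).subset fun M hM => ?_
  have hM' : M.IsMaximal := hM
  have hc := IsLocalRing.eq_maximalIdeal
    (Ideal.isMaximal_comap_of_isIntegral_of_isMaximal (R := A) M)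
  refine ⟨⟨hM'.isPrime, Ideal.map_le_iff_le_comap.2 hc.ge⟩, fun p hp hpM => ?_⟩
  have : p.IsPrime := hp.1
  have hle : IsLocalRing.maximalIdeal A ≤ p.comap (algebraMap A R) :=
    Ideal.map_le_iff_le_comap.1 hp.2
  have : p.IsMaximal := Ideal.isMaximal_of_isIntegral_of_isMaximal_comap (R := A) p
    ((IsLocalRing.maximalIdeal.isMaximal A).eq_of_le
      (Ideal.IsPrime.ne_top inferInstance) hle ▸ inferInstance)
  exact (this.eq_of_le hM'.ne_top hpM).ge

end Vale.Agent.P178
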