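import Mathlib

namespace Vale.Agent.P178

open Polynomial

universe u

theorem height_le_height_map_C {A : Type u} [CommRing A] (p : Ideal A) [p.IsPrime] :
    p.height ≤ (p.map (C : A →+* A[X])).height := by
  let F : PrimeSpectrum A → PrimeSpectrum A[X] := fun q =>
    ⟨q.asIdeal.map C, Ideal.isPrime_map_C_of_isPrime⟩
  have hF : StrictMono F := by
    refine Monotone.strictMono_of_injective (fun a b h => Ideal.map_mono h) fun a b h => ?_
    refine PrimeSpectrum.ext (Ideal.ext fun x => ?_)
    have h2 := SetLike.ext_iff.1 (congrArg PrimeSpectrum.asIdeal h) (C x)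
    simp only [F, Ideal.mem_map_C_iff] at h2
    refine ⟨fun hx => ?_, fun hx => ?_⟩
    · simpa using h2.1 (fun n => by rw [coeff_C]; split <;> simp [hx]) 0
    · simpa using h2.2 (fun n => by rw [coeff_C]; split <;> simp [hx]) 0
  let p' : PrimeSpectrum A := ⟨p, inferInstance⟩
  refine le_of_eq_of_le (PrimeSpectrum.height_eq_orderHeight p')
    ((Order.height_le_height_apply_of_strictMono F hF p').trans_eq ?_)
  exact (PrimeSpectrum.height_eq_orderHeight (F p')).symm

theorem monic_not_mem_map_C {A : Type u} [CommRing A] (p : Ideal A) (hp : p ≠ ⊤) {f : A[X]}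
    (hf : f.Monic) : f ∉ p.map (C : A →+* A[X]) := fun h =>
  p.ne_top_iff_one.1 hp (hf.coeff_natDegree ▸ (Ideal.mem_map_C_iff.1 h f.natDegree))

theorem maximal_of_integral {A : Type u} [CommRing A] {N : ℕ}
    (Q : Ideal (MvPolynomial (Fin N) A)) [Q.IsPrime]
    (hint : ∀ i, ∃ h : A[X], h.Monic ∧ Polynomial.aeval (MvPolynomial.X i) h ∈ Q)
    (hm : (Q.comap MvPolynomial.C).IsMaximal) : Q.IsMaximal := by
  let f : A →+* MvPolynomial (Fin N) A ⧸ Q := (Ideal.Quotient.mk Q).comp MvPolynomial.C
  have hf : f.IsIntegral := by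
    intro x
    obtain ⟨x, rfl⟩ := Ideal.Quotient.mk_surjective x
    induction x using MvPolynomial.induction_on with
    | C a => exact f.isIntegralElem_map
    | add p r hp hr => rw [map_add]; exact hp.add f hr
    | mul_X p i hp =>
      rw [map_mul]
      refine hp.mul f ?_
      obtain ⟨h, hh, h1⟩ := hint i
      refine ⟨h, hh, ?_⟩
      rw [Polynomial.aeval_def] at h1
      exact (Polynomial.hom_eval₂ h (MvPolynomial.C : A →+* MvPolynomial (Fin N) A) _
        (MvPolynomial.X i)).symm.trans (Ideal.Quotient.eq_zero_iff_mem.2 h1)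
  have : (Ideal.comap f ⊥).IsMaximal := by
    rwa [← Ideal.comap_comap, ← RingHom.ker_eq_comap_bot, Ideal.mk_ker]
  exact Ideal.Quotient.maximal_of_isField _ (Ring.isField_iff_maximal_bot.2
    (Ideal.isMaximal_of_isIntegral_of_isMaximal_comap' f hf ⊥ this))

open MvPolynomial in
theorem mvPolynomial_prime {A : Type u} [CommRing A] [IsNoetherianRing A] (N : ℕ)
    (Q : Ideal (MvPolynomial (Fin N) A)) [Q.IsPrime]
    (hint : ∀ i, ∃ h : A[X], h.Monic ∧ Polynomial.aeval (MvPolynomial.X i) h ∈ Q) :
    (Q.comap MvPolynomial.C).height + N ≤ Q.height ∧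
    ((Q.comap MvPolynomial.C).IsMaximal → Q.IsMaximal ∧
      ∀ (e : ℕ) (y : Fin e → A), Ideal.span (Set.range y) = Q.comap MvPolynomial.C →
        ∃ z : Fin (e + N) → MvPolynomial (Fin N) A, Ideal.span (Set.range z) = Q) := by
  induction N with
  | zero =>
    let e := MvPolynomial.isEmptyRingEquiv A (Fin 0)
    have hC : Function.Surjective (MvPolynomial.C : A →+* MvPolynomial (Fin 0) A) :=
      MvPolynomial.C_surjective (Fin 0)
    refine ⟨?_, fun h => ⟨maximal_of_integral Q hint h, fun n y hy => ⟨fun i => MvPolynomial.C (y i), ?_⟩⟩⟩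
    · have : Q.comap MvPolynomial.C = Q.comap e.symm := by
        ext x
        show MvPolynomial.C x ∈ Q ↔ e.symm x ∈ Q
        rw [show e.symm x = MvPolynomial.C x from e.injective (by simp [e])]
      rw [this, RingEquiv.height_comap]
      simp
    · rw [← Ideal.map_comap_of_surjective _ hC Q, ← hy, Ideal.map_span, ← Set.range_comp]
      rfl
  | succ N ih =>
    let e := (MvPolynomial.finSuccEquiv A N).toRingEquiv
    set Q' : Ideal (Polynomial (MvPolynomial (Fin N) A)) := Q.map e with hQ'def
    have hQ'c : Q' = Q.comap e.symm := Ideal.map_comap_of_equiv e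
    have : Q'.IsPrime := hQ'c ▸ inferInstance
    have hmem : ∀ x, e x ∈ Q' ↔ x ∈ Q := fun x => by simp [hQ'c]
    set q := Q'.comap (Polynomial.C : MvPolynomial (Fin N) A →+* _)
    have heC : ∀ a, e (MvPolynomial.C a) = Polynomial.C (MvPolynomial.C a) := fun a => by
      simp [e, finSuccEquiv_apply]
    have hqC : q.comap MvPolynomial.C = Q.comap MvPolynomial.C := by
      ext a; simp only [q, Ideal.mem_comap, ← heC, hmem]
    have heX : ∀ (h : A[X]) (i : Fin (N + 1)), e (Polynomial.aeval (MvPolynomial.X i) h) =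
        Polynomial.aeval (MvPolynomial.finSuccEquiv A N (MvPolynomial.X i)) h := fun h i =>
      (Polynomial.aeval_algHom_apply (MvPolynomial.finSuccEquiv A N) _ h).symm
    have hintq : ∀ i, ∃ h : A[X], h.Monic ∧ Polynomial.aeval (MvPolynomial.X i) h ∈ q := by
      intro i
      obtain ⟨h, hh, h1⟩ := hint i.succ
      refine ⟨h, hh, ?_⟩
      rw [← hmem, heX, MvPolynomial.finSuccEquiv_X_succ] at h1
      change Polynomial.aeval (algebraMap _ (Polynomial (MvPolynomial (Fin N) A))
        (MvPolynomial.X i)) h ∈ Q' at h1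
      rwa [Polynomial.aeval_algebraMap_apply] at h1
    obtain ⟨h0, hh0, h01⟩ := hint 0
    rw [← hmem, heX, MvPolynomial.finSuccEquiv_X_zero,
      ← Polynomial.aeval_map_algebraMap (MvPolynomial (Fin N) A), Polynomial.aeval_X_left_apply]
      at h01
    have hmonic := hh0.map (algebraMap A (MvPolynomial (Fin N) A))
    have hlt : q.map Polynomial.C < Q' := lt_of_le_of_ne Ideal.map_comap_le fun h =>
      monic_not_mem_map_C q (Ideal.IsPrime.ne_top inferInstance) hmonic (h ▸ h01)
    obtain ⟨ih1, ih2⟩ := ih q hintq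
    constructor
    · have h1 := Ideal.height_add_one_le_of_lt_of_isPrime hlt
      rw [← hqC, ← RingEquiv.height_map e Q, Nat.cast_add, Nat.cast_one, ← add_assoc]
      exact le_trans (by gcongr; exact ih1.trans (height_le_height_map_C q)) h1
    · intro hm
      refine ⟨maximal_of_integral Q hint hm, fun n y hy => ?_⟩
      obtain ⟨hqmax, hz⟩ := ih2 (hqC.symm ▸ hm)
      obtain ⟨z, hz⟩ := hz n y (hy.trans hqC.symm)
      obtain ⟨f, -, hf⟩ := Polynomial.exists_monic_span_sup_map_eq _ Q' hqmax hlt.ne'
      refine ⟨fun i => e.symm ((Fin.snoc (fun j => Polynomial.C (z j)) f :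
        Fin (n + N + 1) → _) i), ?_⟩
      have h1 : Ideal.span (Set.range (Fin.snoc (fun j => Polynomial.C (z j)) f :
          Fin (n + N + 1) → _)) = Q' := by
        rw [Fin.range_snoc, Ideal.span_insert, hf, sup_comm,
          show (fun j => Polynomial.C (z j)) = Polynomial.C ∘ z from rfl, Set.range_comp,
          ← Ideal.map_span, hz]
      have h2 : Q = Q'.map (e.symm : _ →+* _) := (Ideal.map_of_equiv e).symm
      rw [h2, ← h1]
      rw [Ideal.map_span, ← Set.range_comp]
      rfl

end Vale.Agent.P178
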