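import Vale.Agent.P178.Divisor
import Vale.Agent.P178.Poly
import Vale.Agent.P178.Ideals

namespace Vale.Agent.P178

open Polynomial

universe u v

/-- Local generators of the kernel of a surjection of a ring onto a Dedekind domain. -/
theorem local_gens_of_dedekind {R : Type u} [CommRing R] {B : Type v} [CommRing B]
    [IsDedekindDomain B] (φ : R →+* B) (hφ : Function.Surjective φ)
    {c : ℕ} (z : Fin (c + 1) → R) {M : Ideal R} [M.IsMaximal]
    (hz : Ideal.span (Set.range z) = M) (hle : RingHom.ker φ ≤ M) (hne : M.map φ ≠ ⊥) :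
    ∃ x : Fin c → R, (∀ i, x i ∈ RingHom.ker φ) ∧
      RingHom.ker φ ≤ Ideal.span (Set.range x) ⊔ M * RingHom.ker φ := by
  classical
  set I := RingHom.ker φ
  set N := M.map φ with hN
  have hc : N.comap φ = M := by
    rw [hN, Ideal.comap_map_of_surjective _ hφ, sup_eq_left]
    exact (RingHom.ker_eq_comap_bot φ).ge.trans hle
  have hNmax : N.IsMaximal := (Ideal.map_eq_top_or_isMaximal_of_surjective φ hφ ‹_›).resolve_left
    fun h => Ideal.IsMaximal.ne_top (I := M) inferInstance (by rw [← hc, show N = ⊤ from h, Ideal.comap_top])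
  have hNne : N ≠ ⊥ := hne
  have hNspan : Ideal.span (Set.range (φ ∘ z)) = N := by
    rw [Set.range_comp, ← Ideal.map_span, hz]
  obtain ⟨i0, hi0⟩ : ∃ i, φ (z i) ∉ N ^ 2 := by
    by_contra hall
    push Not at hall
    have : N ≤ N ^ 2 := by
      conv_lhs => rw [← hNspan]
      rw [Ideal.span_le]
      rintro _ ⟨i, rfl⟩
      exact hall i
    have hlt := Ideal.pow_right_strictAnti N hNne hNmax.ne_top (show 1 < 2 by norm_num)
    simp only [pow_one] at hlt
    exact not_le_of_gt hlt this
  have hmemN : ∀ i, φ (z i) ∈ N := fun i =>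
    Ideal.mem_map_of_mem φ (hz ▸ Ideal.subset_span ⟨i, rfl⟩)
  obtain ⟨J, hJ⟩ := Ideal.dvd_iff_le.2 ((Ideal.span_singleton_le_iff_mem _).2 (hmemN i0))
  obtain ⟨t, htJ, htN⟩ : ∃ t ∈ J, t ∉ N := by
    refine SetLike.not_le_iff_exists.1 fun hJN => hi0 ?_
    rw [pow_two]
    exact Ideal.mul_mono le_rfl hJN (hJ.le (Ideal.mem_span_singleton_self _))
  obtain ⟨s, rfl⟩ := hφ t
  have hsM : s ∉ M := fun h => htN (Ideal.mem_map_of_mem φ h)
  have hdiv : ∀ i, ∃ a : R, φ (s * z i) = φ (a * z i0) := by
    intro i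
    have h1 : φ (s * z i) ∈ Ideal.span {φ (z i0)} := by
      rw [hJ, map_mul, mul_comm (φ s)]
      exact Ideal.mul_mem_mul (hmemN i) htJ
    obtain ⟨b, hb⟩ := Ideal.mem_span_singleton'.1 h1
    obtain ⟨a, rfl⟩ := hφ b
    exact ⟨a, by rw [← hb, map_mul]⟩
  choose a ha using hdiv
  let x : Fin c → R := fun i => s * z (i0.succAbove i) - a (i0.succAbove i) * z i0
  refine ⟨x, fun i => ?_, fun r hr => ?_⟩
  · show φ _ = 0
    rw [map_sub, ha, sub_self]
  · -- first: `s * r` lies in the span of `x` and `z i0`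
    have h1 : s * r ∈ Ideal.span (Set.range x) ⊔ Ideal.span {z i0} := by
      have hr' : r ∈ Ideal.span (Set.range z) := hz.symm ▸ hle hr
      obtain ⟨d, rfl⟩ := Ideal.mem_span_range_iff_exists_fun.1 hr'
      rw [Finset.mul_sum]
      refine Ideal.sum_mem _ fun i _ => ?_
      by_cases hi : i = i0
      · subst hi
        exact Ideal.mem_sup_right (Ideal.mem_span_singleton'.2 ⟨s * d i, by ring⟩)
      · obtain ⟨j, rfl⟩ := Fin.exists_succAbove_eq hi
        rw [show s * (d (i0.succAbove j) * z (i0.succAbove j)) =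
          d (i0.succAbove j) * x j + d (i0.succAbove j) * a (i0.succAbove j) * z i0 by
            simp only [x]; ring]
        exact add_mem (Ideal.mem_sup_left (Ideal.mul_mem_left _ _ (Ideal.subset_span ⟨j, rfl⟩)))
          (Ideal.mem_sup_right (Ideal.mem_span_singleton'.2 ⟨_, rfl⟩))
    obtain ⟨p, hp, q, hq, hpq⟩ := Submodule.mem_sup.1 h1
    obtain ⟨b, rfl⟩ := Ideal.mem_span_singleton'.1 hq
    have hxI : Ideal.span (Set.range x) ≤ I := Ideal.span_le.2 fun _ ⟨i, hi⟩ => by
      subst hi
      show φ _ = 0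
      rw [map_sub, ha, sub_self]
    have hz0 : φ (z i0) ≠ 0 := fun h => hi0 (h ▸ Ideal.zero_mem _)
    have hb : b ∈ I := by
      have h2 : b * z i0 ∈ I := by
        rw [show b * z i0 = s * r - p by rw [← hpq]; ring]
        exact sub_mem (I.mul_mem_left _ hr) (hxI hp)
      have h3 : φ (b * z i0) = 0 := h2
      rw [map_mul] at h3
      exact (mul_eq_zero.1 h3).resolve_right hz0
    obtain ⟨w, m, hm, hwm⟩ := Ideal.IsMaximal.exists_inv ‹M.IsMaximal› hsM
    rw [show r = w * p + (w * (z i0 * b) + m * r) by linear_combination -r * hwm - w * hpq]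
    exact add_mem (Ideal.mem_sup_left (Ideal.mul_mem_left _ _ hp)) (Ideal.mem_sup_right
      (add_mem (Ideal.mul_mem_left _ _ (Ideal.mul_mem_mul (hz ▸ Ideal.subset_span ⟨i0, rfl⟩) hb))
        (Ideal.mul_mem_mul hm hr)))

open MvPolynomial in
/-- A quotient of a polynomial ring by elements with prescribed top forms `X i ^ D` is finite. -/
theorem finite_quotient {A : Type u} [CommRing A] {N : ℕ} (D : ℕ)
    (g : Fin N → MvPolynomial (Fin N) A)
    (hg : ∀ i, (g i - MvPolynomial.X i ^ D).totalDegree < D) :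
    Module.Finite A (MvPolynomial (Fin N) A ⧸ Ideal.span (Set.range g)) := by
  classical
  set J := Ideal.span (Set.range g)
  let mk : MvPolynomial (Fin N) A →ₗ[A] MvPolynomial (Fin N) A ⧸ J :=
    (Ideal.Quotient.mkₐ A J).toLinearMap
  let mon : (Fin N → Fin D) → MvPolynomial (Fin N) A ⧸ J := fun s =>
    mk (monomial (Finsupp.equivFunOnFinite.symm fun i => (s i : ℕ)) 1)
  set W := Submodule.span A (Set.range mon)
  have key : ∀ n, ∀ p : MvPolynomial (Fin N) A, p.totalDegree ≤ n → mk p ∈ W := by
    intro n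
    induction n using Nat.strong_induction_on with
    | _ n ih =>
      intro p hp
      rw [p.as_sum, map_sum]
      refine Submodule.sum_mem _ fun s hs => ?_
      have hsn : (s.sum fun _ e => e) ≤ n := (MvPolynomial.le_totalDegree hs).trans hp
      rw [show monomial s (coeff s p) = coeff s p • (monomial s (1 : A)) by
        rw [MvPolynomial.smul_monomial, smul_eq_mul, mul_one], map_smul]
      refine Submodule.smul_mem _ _ ?_
      by_cases hall : ∀ i, s i < D
      · refine Submodule.subset_span ⟨fun i => ⟨s i, hall i⟩, ?_⟩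
        show mk _ = mk _
        congr 2
        congr 1
        ext j
        simp
      · push Not at hall
        obtain ⟨i, hi⟩ := hall
        set s' := s - Finsupp.single i D
        have hs' : s' + Finsupp.single i D = s :=
          tsub_add_cancel_of_le (Finsupp.single_le_iff.2 hi)
        have hsum : (s'.sum fun _ e => e) + D = s.sum fun _ e => e := by
          conv_rhs => rw [← hs']
          rw [Finsupp.sum_add_index' (fun _ => rfl) (fun _ _ _ => rfl),
            Finsupp.sum_single_index rfl]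
        have heq : mk (monomial s (1 : A)) =
            mk (- (monomial s' 1 * (g i - MvPolynomial.X i ^ D))) := by
          refine (Ideal.Quotient.eq).2 ?_
          have h1 : (monomial s (1 : A)) = monomial s' 1 * MvPolynomial.X i ^ D := by
            rw [MvPolynomial.X_pow_eq_monomial, MvPolynomial.monomial_mul, mul_one, hs']
          rw [h1, sub_neg_eq_add, ← mul_add, add_sub_cancel]
          exact Ideal.mul_mem_left _ _ (Ideal.subset_span ⟨i, rfl⟩)
        rw [heq]
        have hlt := hg i
        have hd : (- (monomial s' (1 : A) * (g i - MvPolynomial.X i ^ D))).totalDegree ≤ n - 1 := by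
          rw [totalDegree_neg]
          refine (totalDegree_mul _ _).trans ?_
          have h1 : (monomial s' (1 : A)).totalDegree ≤ s'.sum fun _ e => e :=
            totalDegree_monomial_le _ _
          omega
        exact ih (n - 1) (by omega) _ hd
  refine ⟨⟨Finset.univ.image mon, ?_⟩⟩
  rw [Finset.coe_image, Finset.coe_univ, Set.image_univ, eq_top_iff]
  intro x _
  obtain ⟨p, rfl⟩ := Ideal.Quotient.mk_surjective x
  exact key _ p le_rfl

theorem totalDegree_aeval_X {A : Type u} [CommRing A] {N : ℕ} (i : Fin N) (q : A[X]) :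
    (aeval (MvPolynomial.X i : MvPolynomial (Fin N) A) q).totalDegree ≤ q.natDegree := by
  rw [Polynomial.aeval_eq_sum_range]
  refine (MvPolynomial.totalDegree_finsetSum _ _).trans (Finset.sup_le fun j hj => ?_)
  refine (MvPolynomial.totalDegree_smul_le _ _).trans ?_
  refine (MvPolynomial.totalDegree_pow _ _).trans ?_
  rw [Finset.mem_range] at hj
  rcases subsingleton_or_nontrivial A with h | h
  · simp [Subsingleton.elim (MvPolynomial.X i : MvPolynomial (Fin N) A) 0]
  · rw [MvPolynomial.totalDegree_X, mul_one]; omega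

/-- The core: a height `k + 1` prime with a finite birational Dedekind model is rationally
trivial. -/
theorem prime_trivial {A : Type u} [CommRing A] [IsNoetherianRing A] [IsLocalRing A] {k : ℕ}
    (y : Fin (k + 2) → A) (hy : Ideal.span (Set.range y) = IsLocalRing.maximalIdeal A)
    (P : CodimPoints A (k + 1)) (hP : P.1.asIdeal ≠ IsLocalRing.maximalIdeal A)
    (B : Type v) [CommRing B] [IsDedekindDomain B] [Algebra A B] [Module.Finite A B]
    (hker : RingHom.ker (algebraMap A B) = P.1.asIdeal)
    (hbir : ∃ b ∉ P.1.asIdeal, ∀ x : B, ∃ a : A, b • x = algebraMap A B a) :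
    Finsupp.single P (1 : ℤ) ∈ rationallyTrivial A k := by
  classical
  obtain ⟨N, w, hw⟩ := Module.Finite.exists_fin (R := A) (M := B)
  set T := MvPolynomial (Fin N) A
  let φ : T →ₐ[A] B := MvPolynomial.aeval w
  have hφ : Function.Surjective φ := by
    intro x
    have : (⊤ : Submodule A B) ≤ LinearMap.range φ.toLinearMap := by
      rw [← hw, Submodule.span_le]
      rintro _ ⟨i, rfl⟩
      exact ⟨MvPolynomial.X i, MvPolynomial.aeval_X w i⟩
    exact this (Submodule.mem_top (x := x))
  let φr : T →+* B := φ.toRingHom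
  have hφr : Function.Surjective φr := hφ
  set I : Ideal T := RingHom.ker φr with hI
  have : I.IsPrime := RingHom.ker_isPrime _
  have hmon : ∀ i, ∃ h : A[X], h.Monic ∧ aeval (MvPolynomial.X i : T) h ∈ I := by
    intro i
    obtain ⟨h, hh, h0⟩ := Algebra.IsIntegral.isIntegral (R := A) (w i)
    refine ⟨h, hh, ?_⟩
    show φ (aeval (MvPolynomial.X i : T) h) = 0
    rw [← aeval_algHom_apply, show φ (MvPolynomial.X i) = w i from MvPolynomial.aeval_X w i]
    exact h0
  choose hp hpm hpI using hmon
  have hIC : I.comap MvPolynomial.C = P.1.asIdeal := by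
    rw [← hker]
    ext a
    show φ (MvPolynomial.C a) = 0 ↔ algebraMap A B a = 0
    rw [show φ (MvPolynomial.C a) = algebraMap A B a from MvPolynomial.aeval_C w a]
  have hIht : ((k + 1 : ℕ) : ℕ∞) + N ≤ I.height := by
    have := (mvPolynomial_prime N I fun i => ⟨hp i, hpm i, hpI i⟩).1
    rwa [hIC, P.2] at this
  -- maximal ideals containing `I`
  set 𝔐 : Set (Ideal T) := {M | M.IsMaximal ∧ I ≤ M}
  have hfin : 𝔐.Finite := by
    have hB := finite_maximals (R := B) A
    refine (hB.image fun n => n.comap φr).subset ?_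
    rintro M ⟨hM, hIM⟩
    refine ⟨M.map φr, ?_, ?_⟩
    · refine (Ideal.map_eq_top_or_isMaximal_of_surjective _ hφr hM).resolve_left fun h => ?_
      have := congrArg (Ideal.comap φr) h
      rw [Ideal.comap_map_of_surjective _ hφr, Ideal.comap_top, ← RingHom.ker_eq_comap_bot,
        sup_eq_left.2 hIM] at this
      exact hM.ne_top this
    · show Ideal.comap _ _ = M
      rw [Ideal.comap_map_of_surjective _ hφr, ← RingHom.ker_eq_comap_bot, sup_eq_left.2 hIM]
  have hloc : ∀ M ∈ 𝔐, ∃ x : Fin (N + (k + 1)) → T, (∀ i, x i ∈ I) ∧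
      I ≤ Ideal.span (Set.range x) ⊔ M * I := by
    rintro M ⟨hM, hIM⟩
    have hne : M.map φr ≠ ⊥ := by
      intro h
      have hMI : M ≤ I := fun x hx => by
        have := Ideal.mem_map_of_mem φr hx
        rw [h] at this
        exact this
      have hI' : I.IsMaximal := (le_antisymm hMI hIM) ▸ hM
      have hfield : IsField B := MulEquiv.isField (Ideal.Quotient.maximal_ideal_iff_isField_quotient
        I |>.1 hI') (RingHom.quotientKerEquivOfSurjective hφr).toMulEquiv.symm
      have hbot : (⊥ : Ideal B).IsMaximal := Ring.isField_iff_maximal_bot.1 hfield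
      have := IsLocalRing.eq_maximalIdeal
        (Ideal.isMaximal_comap_of_isIntegral_of_isMaximal (R := A) (⊥ : Ideal B))
      rw [← RingHom.ker_eq_comap_bot, hker] at this
      exact hP this
    have hMC : M.comap MvPolynomial.C = IsLocalRing.maximalIdeal A := by
      have hn : (M.map φr).IsMaximal :=
        (Ideal.map_eq_top_or_isMaximal_of_surjective _ hφr hM).resolve_left fun h => by
          have := congrArg (Ideal.comap φr) h
          rw [Ideal.comap_map_of_surjective _ hφr, Ideal.comap_top, ← RingHom.ker_eq_comap_bot,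
            sup_eq_left.2 hIM] at this
          exact hM.ne_top this
      have := IsLocalRing.eq_maximalIdeal
        (Ideal.isMaximal_comap_of_isIntegral_of_isMaximal (R := A) (M.map φr))
      rw [show algebraMap A B = φr.comp MvPolynomial.C from φ.comp_algebraMap.symm,
        ← Ideal.comap_comap, Ideal.comap_map_of_surjective _ hφr,
        ← RingHom.ker_eq_comap_bot, sup_eq_left.2 hIM] at this
      exact this
    have : M.IsPrime := hM.isPrime
    obtain ⟨-, hgen⟩ := mvPolynomial_prime N M fun i => ⟨hp i, hpm i, hIM (hpI i)⟩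
    obtain ⟨-, hgen⟩ := hgen (hMC ▸ IsLocalRing.maximalIdeal.isMaximal A)
    obtain ⟨z, hz⟩ := hgen (k + 2) y (hy.trans hMC.symm)
    have hcast : N + (k + 1) + 1 = k + 2 + N := by omega
    exact local_gens_of_dedekind φr hφr (z ∘ Fin.cast hcast) (M := M)
      ((congrArg Ideal.span ((finCongr hcast).surjective.range_comp z)).trans hz) hIM hne
  obtain ⟨v, hv, hvI⟩ := crt_family hfin (fun M hM => hM.1) hloc
  -- the finite algebra `R`
  set D := (Finset.univ.sup fun i : Fin N => (v (Fin.castAdd (k + 1) i)).totalDegree) +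
    (Finset.univ.sup fun i : Fin N => 2 * (hp i).natDegree) + 1 with hD
  have hD1 : ∀ i : Fin N, (v (Fin.castAdd (k + 1) i)).totalDegree < D := fun i => by
    have := Finset.le_sup (f := fun i : Fin N => (v (Fin.castAdd (k + 1) i)).totalDegree)
      (Finset.mem_univ i)
    omega
  have hD2 : ∀ i : Fin N, 2 * (hp i).natDegree < D := fun i => by
    have := Finset.le_sup (f := fun i : Fin N => 2 * (hp i).natDegree) (Finset.mem_univ i)
    omega
  let pw : Fin N → A[X] := fun i => X ^ (D - 2 * (hp i).natDegree) * (hp i) ^ 2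
  let w' : Fin N → T := fun i => aeval (MvPolynomial.X i : T) (pw i)
  have hw' : ∀ i, w' i ∈ I * I := fun i => by
    simp only [w', pw, map_mul, map_pow]
    exact Ideal.mul_mem_left _ _ (by rw [pow_two]; exact Ideal.mul_mem_mul (hpI i) (hpI i))
  let g : Fin N → T := fun i => v (Fin.castAdd (k + 1) i) + w' i
  have : Nontrivial A := inferInstance
  have hg : ∀ i, MvPolynomial.totalDegree (g i - MvPolynomial.X i ^ D) < D := by
    intro i
    have hmon : (pw i).Monic := (monic_X_pow _).mul ((hpm i).pow 2)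
    have hdeg : (pw i).natDegree = D := by
      rw [(monic_X_pow _).natDegree_mul ((hpm i).pow 2), natDegree_X_pow, (hpm i).natDegree_pow]
      have := hD2 i; omega
    have heq : g i - MvPolynomial.X i ^ D =
        v (Fin.castAdd (k + 1) i) + aeval (MvPolynomial.X i : T) (pw i - X ^ D) := by
      simp only [g, w', map_sub, map_pow, aeval_X]; ring
    rw [heq]
    refine lt_of_le_of_lt (MvPolynomial.totalDegree_add _ _) (max_lt (hD1 i) ?_)
    refine lt_of_le_of_lt (totalDegree_aeval_X i _) ?_
    have h0 : D ≠ 0 := by omega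
    have hlc := Polynomial.degree_sub_lt_left (p := pw i) (q := X ^ D) (by
      rw [degree_eq_natDegree hmon.ne_zero, hdeg, degree_X_pow]) hmon.ne_zero (by
      rw [hmon.leadingCoeff, (monic_X_pow D).leadingCoeff])
    by_cases hz : pw i - X ^ D = 0
    · rw [hz, natDegree_zero]; omega
    · rw [degree_eq_natDegree hz, degree_eq_natDegree hmon.ne_zero, hdeg] at hlc
      exact_mod_cast hlc
  set G : Ideal T := Ideal.span (Set.range g) with hG
  have hRfin : Module.Finite A (T ⧸ G) := finite_quotient D g hg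
  have : Algebra.IsIntegral A (T ⧸ G) := inferInstance
  have hGI : G ≤ I := Ideal.span_le.2 (Set.range_subset_iff.2 fun i =>
    add_mem (hv _) (Ideal.mul_le_left (hw' i)))
  set π : T →+* T ⧸ G := Ideal.Quotient.mk G
  have hπ : Function.Surjective π := Ideal.Quotient.mk_surjective
  set I' : Ideal (T ⧸ G) := I.map π
  have hI'c : I'.comap π = I := by
    rw [Ideal.comap_map_of_surjective _ hπ, ← RingHom.ker_eq_comap_bot, Ideal.mk_ker,
      sup_eq_left.2 hGI]
  have hI'p : I'.IsPrime := Ideal.isPrime_map_quotientMk_of_isPrime hGI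
  have hI'ht : ((k + 1 : ℕ) : ℕ∞) ≤ I'.height := by
    have h1 := Ideal.height_le_height_add_spanFinrank_of_le hGI
    have h2 : G.spanFinrank ≤ N := by
      refine (Submodule.spanFinrank_span_le_ncard_of_finite (Set.finite_range g)).trans ?_
      rw [← Set.image_univ]
      refine (Set.ncard_image_le Set.finite_univ).trans ?_
      simp
    exact WithTop.le_of_add_le_add_right (ENat.natCast_ne_top N)
      ((hIht.trans h1).trans (add_le_add le_rfl (by exact_mod_cast h2)))
  obtain ⟨f0, hf0⟩ := semilocal_gens (R := T ⧸ G) (finite_maximals A) I' (n := k) (by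
    intro M hM hIM
    set M₀ := M.comap π
    have hM₀ : M₀.IsMaximal := Ideal.comap_isMaximal_of_surjective π hπ
    have hIM₀ : I ≤ M₀ := hI'c ▸ Ideal.comap_mono hIM
    have h1 := Ideal.map_mono (f := π) (hvI M₀ ⟨hM₀, hIM₀⟩)
    rw [Ideal.map_sup, Ideal.map_mul, Ideal.map_comap_of_surjective _ hπ, Ideal.map_span,
      ← Set.range_comp] at h1
    refine ⟨fun j => π (v (Fin.natAdd N j)), fun j => Ideal.mem_map_of_mem π (hv _),
      h1.trans (sup_le (Ideal.span_le.2 ?_) le_sup_right)⟩
    rintro _ ⟨i, rfl⟩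
    induction i using Fin.addCases with
    | right j => exact Ideal.mem_sup_left (Ideal.subset_span ⟨j, rfl⟩)
    | left j =>
      refine Ideal.mem_sup_right ?_
      have h2 : π (g j) = 0 := Ideal.Quotient.eq_zero_iff_mem.2 (Ideal.subset_span ⟨j, rfl⟩)
      rw [map_add, add_eq_zero_iff_eq_neg] at h2
      show π (v (Fin.castAdd (k + 1) j)) ∈ M * I'
      rw [h2]
      have h3 := Ideal.mem_map_of_mem π (hw' j)
      rw [Ideal.map_mul] at h3
      exact neg_mem (Ideal.mul_mono_left hIM h3))
  obtain ⟨f, hf, hfp⟩ := generic_gens I' f0 hf0 (k + 1) le_rfl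
  set L : Ideal (T ⧸ G) := Ideal.span (Set.range (f ∘ Fin.castSucc))
  have hLI : L ≤ I' := hf ▸ Ideal.span_mono (Set.range_comp_subset_range _ _)
  obtain ⟨q, hq, hqI⟩ := Ideal.exists_minimalPrimes_le hLI
  have hqp : q.IsPrime := hq.1.1
  have hqne : q ≠ I' := by
    intro h
    have h1 := Ideal.height_le_card_of_mem_minimalPrimes_span_finset
      (s := Finset.univ.image (f ∘ Fin.castSucc)) (p := I') (by
        rw [Finset.coe_image, Finset.coe_univ, Set.image_univ]; exact h ▸ hq)
    have h2 := hI'ht.trans (h1.trans (Nat.cast_le.2 (Finset.card_image_le.trans_eq (by simp :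
      Finset.univ.card = k))))
    rw [Nat.cast_le] at h2; omega
  have hIq : ¬ I' ≤ q := fun h => hqne (le_antisymm hqI h)
  have hqht : (k : ℕ∞) ≤ q.height := hfp k (by omega) q hqp hIq fun j hj => hq.1.2
    (Ideal.subset_span ⟨⟨j, hj⟩, rfl⟩)
  have hcomp : (algebraMap A (T ⧸ G)) = π.comp (algebraMap A T) := rfl
  have hPc : I'.comap (algebraMap A (T ⧸ G)) = P.1.asIdeal := by
    rw [hcomp, ← Ideal.comap_comap, hI'c, MvPolynomial.algebraMap_eq, hIC]
  have hstrict : ∀ p₁ p₂ : PrimeSpectrum (T ⧸ G), p₁ < p₂ →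
      PrimeSpectrum.comap (algebraMap A (T ⧸ G)) p₁ <
        PrimeSpectrum.comap (algebraMap A (T ⧸ G)) p₂ := by
    intro p₁ p₂ h
    obtain ⟨x, hx2, hx1⟩ := SetLike.exists_of_lt (show p₁.asIdeal < p₂.asIdeal from h)
    exact Ideal.comap_lt_comap_of_integral_mem_sdiff h.le ⟨hx2, hx1⟩
      (Algebra.IsIntegral.isIntegral x)
  set Q : Ideal A := q.comap (algebraMap A (T ⧸ G))
  have hQht : Q.height = k := by
    apply le_antisymm
    · have hlt : Q < P.1.asIdeal := by
        rw [← hPc]
        exact hstrict ⟨q, hqp⟩ ⟨I', hI'p⟩ (lt_of_le_of_ne (a := q) (b := I') hqI hqne :)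
      have h1 := Ideal.height_add_one_le_of_lt_of_isPrime hlt
      rw [P.2, Nat.cast_add, Nat.cast_one] at h1
      exact WithTop.le_of_add_le_add_right (ENat.natCast_ne_top 1) h1
    · refine hqht.trans ?_
      refine le_of_eq_of_le (PrimeSpectrum.height_eq_orderHeight ⟨q, hqp⟩) ?_
      refine (Order.height_le_height_apply_of_strictMono _ hstrict _).trans_eq ?_
      exact (PrimeSpectrum.height_eq_orderHeight _).symm
  let S := (T ⧸ G) ⧸ q
  have hSk : RingHom.ker (algebraMap A S) = Q := by
    ext a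
    rw [RingHom.mem_ker, IsScalarTower.algebraMap_apply A (T ⧸ G) S,
      Ideal.Quotient.algebraMap_eq, Ideal.Quotient.eq_zero_iff_mem]
    rfl
  set fl : T ⧸ G := f (Fin.last k)
  set fS : S := Ideal.Quotient.mk q fl
  have hI'eq : I' ≤ L ⊔ Ideal.span {fl} := by
    rw [← hf, Ideal.span_le]
    rintro _ ⟨i, rfl⟩
    induction i using Fin.lastCases with
    | last => exact Ideal.mem_sup_right (Ideal.subset_span rfl)
    | cast i => exact Ideal.mem_sup_left (Ideal.subset_span ⟨i, rfl⟩)
  have hfS : fS ≠ 0 := by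
    intro h
    rw [Ideal.Quotient.eq_zero_iff_mem] at h
    exact hIq (hI'eq.trans (sup_le hq.1.2 ((Ideal.span_singleton_le_iff_mem _).2 h)))
  obtain ⟨zz, hzz, hzzv⟩ := exists_norm_divisor (A := A) (k := k) (S := S) (by rw [hSk, hQht])
    fS hfS
  -- the map from `S` to `B`
  let φR : (T ⧸ G) →ₐ[A] B := Ideal.Quotient.liftₐ G φ fun x hx => hGI hx
  have hφRker : ∀ r, φR r = 0 ↔ r ∈ I' := by
    intro r
    obtain ⟨r, rfl⟩ := hπ r
    show φ r = 0 ↔ r ∈ I'.comap π
    rw [hI'c]
    rfl
  let ψ : S →ₐ[A] B := Ideal.Quotient.liftₐ q φR fun x hx => (hφRker x).2 (hqI hx)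
  have hψ : Function.Surjective ψ := by
    intro b
    obtain ⟨r, rfl⟩ := hφ b
    exact ⟨Ideal.Quotient.mk q (π r), rfl⟩
  have hψker : LinearMap.range (LinearMap.mulLeft A fS) = LinearMap.ker ψ.toLinearMap := by
    ext x
    obtain ⟨r, rfl⟩ := Ideal.Quotient.mk_surjective x
    constructor
    · rintro ⟨s, hs⟩
      rw [LinearMap.mem_ker, ← hs, AlgHom.toLinearMap_apply, LinearMap.mulLeft_apply, map_mul]
      have : φR fl = 0 := (hφRker fl).2 (hf ▸ Ideal.subset_span ⟨Fin.last k, rfl⟩)
      rw [show ψ fS = φR fl from rfl, this, zero_mul]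
    · intro h
      have hr : r ∈ I' := (hφRker r).1 h
      obtain ⟨l, hl, m, hm, rfl⟩ := Submodule.mem_sup.1 (hI'eq hr)
      obtain ⟨a, rfl⟩ := Ideal.mem_span_singleton'.1 hm
      refine ⟨Ideal.Quotient.mk q a, ?_⟩
      rw [LinearMap.mulLeft_apply, map_add, map_mul,
        Ideal.Quotient.eq_zero_iff_mem.2 (hq.1.2 hl), zero_add]
      exact mul_comm fS (Ideal.Quotient.mk q a)
  have hzP : zz = Finsupp.single P 1 := by
    ext P'
    rw [hzzv P', locLen_congr P'.1.asIdeal ((Submodule.quotEquivOfEq _ _ hψker).trans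
      (ψ.toLinearMap.quotKerEquivOfSurjective hψ))]
    by_cases hPP : P = P'
    · subst hPP
      rw [Finsupp.single_eq_same]
      suffices locLen P.1.asIdeal B = 1 by simp [this]
      obtain ⟨b, hb, hbx⟩ := hbir
      let j : A ⧸ P.1.asIdeal →ₗ[A] B := Submodule.liftQ P.1.asIdeal (Algebra.linearMap A B)
        (fun x hx => by simpa [← hker] using hx)
      have hj : Function.Injective j := by
        rw [injective_iff_map_eq_zero]
        intro x hx
        obtain ⟨a, rfl⟩ := Submodule.Quotient.mk_surjective _ x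
        rw [Submodule.Quotient.mk_eq_zero, ← hker]
        exact hx
      rw [locLen_exact P.1.asIdeal j (LinearMap.range j).mkQ hj (Submodule.mkQ_surjective _)
        (LinearMap.exact_map_mkQ_range j), locLen_quotient_self, locLen_zero, add_zero]
      intro x
      obtain ⟨x, rfl⟩ := Submodule.Quotient.mk_surjective _ x
      obtain ⟨a, ha⟩ := hbx x
      exact ⟨b, hb, (Submodule.Quotient.mk_smul _ b x).symm.trans
        ((Submodule.Quotient.mk_eq_zero _).2 ⟨Submodule.Quotient.mk a, ha.symm⟩)⟩
    · rw [Finsupp.single_eq_of_ne (Ne.symm hPP)]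
      suffices locLen P'.1.asIdeal B = 0 by simp [this]
      have hne : ¬ P.1.asIdeal ≤ P'.1.asIdeal := by
        intro h
        have hlt : P.1.asIdeal < P'.1.asIdeal := lt_of_le_of_ne h fun he =>
          hPP (Subtype.ext (PrimeSpectrum.ext he))
        have h1 := Ideal.height_add_one_le_of_lt_of_isPrime hlt
        rw [P.2, P'.2, ← Nat.cast_one (R := ℕ∞), ← Nat.cast_add, Nat.cast_le] at h1
        omega
      obtain ⟨t, ht, htP⟩ := SetLike.not_le_iff_exists.1 hne
      refine locLen_zero _ fun x => ⟨t, htP, ?_⟩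
      rw [Algebra.smul_def, show algebraMap A B t = 0 from (hker.symm ▸ ht :), zero_mul]
  exact hzP ▸ hzz

end Vale.Agent.P178
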