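import Vale.Agent.P178.Gen

namespace Vale.Agent.P178

open Polynomial

universe u

section

variable {A : Type u} [CommRing A] [IsLocalRing A] [IsNoetherianRing A]

local instance : (IsLocalRing.maximalIdeal A).IsPrime :=
  (IsLocalRing.maximalIdeal.isMaximal A).isPrime

omit [IsNoetherianRing A] in
/-- Over a local ring, a nonzero module has positive localised length at the maximal ideal. -/
theorem one_le_locLen_max (M : Type*) [AddCommGroup M] [Module A M] [Nontrivial M] :
    1 ≤ locLen (IsLocalRing.maximalIdeal A) M := by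
  rw [Order.one_le_iff_ne_zero, locLen, Ne, Module.length_eq_zero_iff,
    LocalizedModule.subsingleton_iff]
  intro h
  obtain ⟨m, hm⟩ := exists_ne (0 : M)
  obtain ⟨r, hr, hrm⟩ := h m
  have hu : IsUnit r := IsLocalRing.notMem_maximalIdeal.1 hr
  exact hm (hu.smul_eq_zero.1 hrm)

omit [IsNoetherianRing A] in
theorem max_height {n : ℕ} (hd : ringKrullDim A = n) :
    (IsLocalRing.maximalIdeal A).height = n := by
  have h := IsLocalRing.maximalIdeal_height_eq_ringKrullDim (R := A)
  rw [hd] at h
  exact WithBot.coe_injective h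

theorem curve_ne_max {n : ℕ} (hd : ringKrullDim A = (n + 1 : ℕ)) (P : CodimPoints A n) :
    P.1.asIdeal ≠ IsLocalRing.maximalIdeal A := by
  intro h
  have h1 := max_height hd
  rw [← h, P.2, Nat.cast_inj] at h1
  omega

theorem no_prime_above {n : ℕ} (hd : ringKrullDim A = (n + 1 : ℕ)) (P : CodimPoints A n)
    {f : A} (hf : f ∉ P.1.asIdeal) : ∀ p : Ideal A, p.IsPrime →
      P.1.asIdeal ⊔ Ideal.span {f} ≤ p → p = IsLocalRing.maximalIdeal A := fun p hp hle =>
  no_prime_between P.2 (max_height hd) hf p hp hle (IsLocalRing.le_maximalIdeal hp.ne_top)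

/-- A nonzero element of an integral domain extension of `A` with kernel `P` has a multiple in
the image of `A`. -/
theorem exists_base_element {B : Type*} [CommRing B] [IsDomain B] [Algebra A B]
    [Algebra.IsIntegral A B] (P : Ideal A) (hP : P.IsPrime)
    (hkA : ∀ a : A, algebraMap A B a = 0 ↔ a ∈ P) (c : B) (hc : c ≠ 0) :
    ∃ d ∉ P, ∃ c' : B, algebraMap A B d = c * c' := by
  have hker : RingHom.ker (algebraMap A B) = P := Ideal.ext hkA
  let hom : A ⧸ P →+* B := Ideal.Quotient.lift P (algebraMap A B) fun a ha => (hkA a).2 ha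
  let : Algebra (A ⧸ P) B := hom.toAlgebra
  have : IsScalarTower A (A ⧸ P) B := IsScalarTower.of_algebraMap_eq fun _ => rfl
  have : FaithfulSMul (A ⧸ P) B := (faithfulSMul_iff_algebraMap_injective _ _).2
    (RingHom.lift_injective_of_ker_le_ideal P _ hker.le)
  have : IsDomain (A ⧸ P) := Ideal.Quotient.isDomain P
  have : Algebra.IsIntegral (A ⧸ P) B := Algebra.IsIntegral.tower_top (R := A)
  obtain ⟨p, hp0, hp⟩ := exists_base_multiple (D := A ⧸ P) c hc
  obtain ⟨d, hd⟩ := Ideal.Quotient.mk_surjective (p.coeff 0)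
  refine ⟨d, fun h => hp0 (by rw [← hd, Ideal.Quotient.eq_zero_iff_mem.2 h]),
    -aeval c p.divX, ?_⟩
  rw [IsScalarTower.algebraMap_apply A (A ⧸ P) B, Ideal.Quotient.algebraMap_eq, hd, hp]

/-- In a complete regular local ring the quotient by a prime of coheight one has finite
normalisation (the classical argument of Krull and Akizuki). -/
theorem finite_birational [IsAdicComplete (IsLocalRing.maximalIdeal A) A] {n : ℕ}
    (hd : ringKrullDim A = (n + 1 : ℕ)) (P : CodimPoints A n)
    (B : Type u) [CommRing B] [IsDomain B] [Algebra A B] [Algebra.IsIntegral A B]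
    (hkA : ∀ a : A, algebraMap A B a = 0 ↔ a ∈ P.1.asIdeal)
    (hden : ∀ z : B, ∃ c ∉ P.1.asIdeal, ∃ d : A, c • z = algebraMap A B d) :
    Module.Finite A B := by
  classical
  set m := IsLocalRing.maximalIdeal A
  obtain ⟨x, hxm, hxP⟩ : ∃ x ∈ m, x ∉ P.1.asIdeal := SetLike.exists_of_lt
    (lt_of_le_of_ne (IsLocalRing.le_maximalIdeal P.1.isPrime.ne_top) (curve_ne_max hd P))
  have hno : ∀ f ∉ P.1.asIdeal, ∀ p : Ideal A, p.IsPrime →
      P.1.asIdeal ⊔ Ideal.span {f} ≤ p → p ≤ m → p = m :=
    fun f hf p hp hle _ => no_prime_above hd P hf p hp hle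
  -- finite length of finite modules killed by `P` and an element outside it
  have hfin : ∀ (M : Type u) [AddCommGroup M] [Module A M] [Module.Finite A M],
      ∀ c ∉ P.1.asIdeal, (∀ a ∈ P.1.asIdeal, ∀ z : M, a • z = 0) → (∀ z : M, c • z = 0) →
        locLen m M ≠ ⊤ := by
    intro M _ _ _ c hc hP hcM
    refine locLen_ne_top_of_finite m (P.1.asIdeal ⊔ Ideal.span {c}) (fun a ha z => ?_) (hno c hc)
    obtain ⟨a₁, h₁, a₂, h₂, rfl⟩ := Submodule.mem_sup.1 ha
    obtain ⟨t, rfl⟩ := Ideal.mem_span_singleton'.1 h₂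
    rw [add_smul, hP a₁ h₁ z, mul_smul, hcM, smul_zero, add_zero]
  let D' : Submodule A B := LinearMap.range (Algebra.linearMap A B)
  have hmulmem : ∀ (L : Submodule A B) (a : A), ∀ z ∈ L, algebraMap A B a * z ∈ L := fun L a z hz =>
    by rw [← Algebra.smul_def]; exact L.smul_mem a hz
  let mulA : ∀ (L : Submodule A B), A → (L →ₗ[A] L) := fun L a => LinearMap.lsmul A L a
  have mulA_inj : ∀ (L : Submodule A B) (a : A), a ∉ P.1.asIdeal →
      Function.Injective (mulA L a) := fun L a ha => by
    rw [injective_iff_map_eq_zero]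
    intro z hz
    have h1 : algebraMap A B a * (z : B) = 0 := by
      rw [← Algebra.smul_def]; exact congrArg Subtype.val hz
    exact Subtype.ext ((mul_eq_zero.1 h1).resolve_left fun h => ha ((hkA a).1 h))
  -- the length of `L / a L` does not depend on the finite module `L` between `D` and `B`
  set e : A → ℕ∞ := fun a => locLen m (D' ⧸ LinearMap.range (mulA D' a))
  have he_fin : ∀ a ∉ P.1.asIdeal, e a ≠ ⊤ := fun a ha => hfin _ a ha
    (fun b hb z => by
      obtain ⟨z, rfl⟩ := Submodule.Quotient.mk_surjective _ z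
      rw [← Submodule.Quotient.mk_smul, show b • z = 0 from Subtype.ext
        (by show b • (z : B) = 0; rw [Algebra.smul_def, (hkA b).2 hb, zero_mul])]
      rfl)
    (fun z => by
      obtain ⟨z, rfl⟩ := Submodule.Quotient.mk_surjective _ z
      rw [← Submodule.Quotient.mk_smul, Submodule.Quotient.mk_eq_zero]
      exact ⟨z, rfl⟩)
  have hindep : ∀ (L : Submodule A B), L.FG → D' ≤ L → ∀ a ∉ P.1.asIdeal,
      locLen m (L ⧸ LinearMap.range (mulA L a)) = e a := by
    intro L hL hle a ha
    have : Module.Finite A L := Module.Finite.iff_fg.2 hL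
    obtain ⟨s, hs⟩ := hL
    choose den hden' num hnum using hden
    set c := ∏ w ∈ s, den w
    have hcP : c ∉ P.1.asIdeal := fun h => by
      obtain ⟨w, -, hw⟩ := P.1.isPrime.prod_mem_iff.1 h
      exact hden' w hw
    have hcL : ∀ z ∈ L, c • z ∈ D' := by
      intro z hz
      rw [← hs] at hz
      have : Submodule.span A (s : Set B) ≤ D'.comap (LinearMap.lsmul A B c) := by
        rw [Submodule.span_le]
        intro w hw
        obtain ⟨t, ht⟩ := Finset.dvd_prod_of_mem den hw
        refine ⟨t * num w, ?_⟩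
        show algebraMap A B (t * num w) = c • w
        rw [show c = t * den w by rw [mul_comm]; exact ht, mul_smul, hnum, map_mul,
          Algebra.smul_def]
      exact this hz
    refine coker_invariant m (Submodule.inclusion hle) (mulA L a) (mulA D' a)
      (Submodule.inclusion_injective hle) (mulA_inj L a ha) (LinearMap.ext fun z => rfl) ?_
    refine hfin _ c hcP (fun b hb z => ?_) (fun z => ?_)
    · obtain ⟨z, rfl⟩ := Submodule.Quotient.mk_surjective _ z
      rw [← Submodule.Quotient.mk_smul, show b • z = 0 from Subtype.ext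
        (by show b • (z : B) = 0; rw [Algebra.smul_def, (hkA b).2 hb, zero_mul])]
      rfl
    · obtain ⟨z, rfl⟩ := Submodule.Quotient.mk_surjective _ z
      rw [← Submodule.Quotient.mk_smul, Submodule.Quotient.mk_eq_zero]
      exact ⟨⟨c • (z : B), hcL z z.2⟩, rfl⟩
  -- `B / x B` is finite
  set xB : Submodule A B := LinearMap.range (LinearMap.lsmul A B x)
  have hbound : ∀ N : Submodule A (B ⧸ xB), N.FG → locLen m N ≤ e x := by
    intro N hN
    obtain ⟨s, hs⟩ := hN
    choose l hl using fun z : B ⧸ xB => Submodule.Quotient.mk_surjective xB z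
    set L : Submodule A B := Submodule.span A (l '' s) ⊔ D'
    have hLfg : L.FG := (Submodule.fg_span (s.finite_toSet.image l)).sup
      (by rw [show D' = Submodule.map (Algebra.linearMap A B) ⊤ from (Submodule.map_top _).symm]
          exact (IsNoetherian.noetherian _).map _)
    set L' := Submodule.map xB.mkQ L
    have hNL : N ≤ L' := by
      rw [← hs, Submodule.span_le]
      exact fun z hz => ⟨l z, Submodule.mem_sup_left (Submodule.subset_span ⟨z, hz, rfl⟩), hl z⟩
    let π : (L ⧸ LinearMap.range (mulA L x)) →ₗ[A] L' :=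
      Submodule.liftQ _ ((xB.mkQ.comp L.subtype).codRestrict L' fun z => ⟨z, z.2, rfl⟩) (by
        rintro _ ⟨z, rfl⟩
        exact Subtype.ext ((Submodule.Quotient.mk_eq_zero _).2 ⟨(z : B), rfl⟩))
    have hπ : Function.Surjective π := by
      rintro ⟨_, z, hz, rfl⟩
      exact ⟨Submodule.Quotient.mk ⟨z, hz⟩, rfl⟩
    calc locLen m N ≤ locLen m L' := Module.length_le_of_injective
          (LocalizedModule.map m.primeCompl (Submodule.inclusion hNL))
          (LocalizedModule.map_injective _ _ (Submodule.inclusion_injective hNL))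
      _ ≤ _ := (locLen_le_of_surjective m π hπ).trans_eq (hindep L hLfg le_sup_right x hxP)
  obtain ⟨eN, heN⟩ := ENat.ne_top_iff_exists.1 (he_fin x hxP)
  have hbdd : BddAbove {k : ℕ | ∃ N : Submodule A (B ⧸ xB), N.FG ∧ locLen m N = k} :=
    ⟨eN, fun k ⟨N, hN, hk⟩ => by
      have := hbound N hN
      rw [hk, ← heN, Nat.cast_le] at this
      exact this⟩
  obtain ⟨N₀, hN₀, hN₀k⟩ := Nat.sSup_mem (s := {k : ℕ | ∃ N : Submodule A (B ⧸ xB),
      N.FG ∧ locLen m N = k}) ⟨0, ⊥, Submodule.fg_bot, by
        rw [locLen_zero m fun z => ⟨1, m.primeCompl.one_mem, Subsingleton.elim _ _⟩]; rfl⟩ hbdd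
  have hN₀top : N₀ = ⊤ := by
    by_contra hne
    obtain ⟨z, -, hz⟩ := SetLike.exists_of_lt (lt_top_iff_ne_top.2 hne)
    set N₁ := N₀ ⊔ Submodule.span A {z}
    have hN₁ : N₁.FG := hN₀.sup (Submodule.fg_span_singleton z)
    obtain ⟨k₁, hk₁⟩ := ENat.ne_top_iff_exists.1
      (ne_top_of_le_ne_top (he_fin x hxP) (hbound N₁ hN₁))
    have hle := le_csSup hbdd ⟨N₁, hN₁, hk₁.symm⟩
    set i := Submodule.inclusion (le_sup_left : N₀ ≤ N₁)
    have : Nontrivial (N₁ ⧸ LinearMap.range i) := by
      refine Submodule.Quotient.nontrivial_iff.2 fun h => hz ?_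
      have hzmem : z ∈ N₁ := Submodule.mem_sup_right (Submodule.mem_span_singleton_self z)
      obtain ⟨w, hw⟩ := h.ge (Submodule.mem_top (x := (⟨z, hzmem⟩ : N₁)))
      rw [← show (w : B ⧸ xB) = z from congrArg Subtype.val hw]
      exact w.2
    have h1 := locLen_exact m i (LinearMap.range i).mkQ (Submodule.inclusion_injective _)
      (Submodule.mkQ_surjective _) (LinearMap.exact_map_mkQ_range i)
    have h2 := one_le_locLen_max (A := A) (N₁ ⧸ LinearMap.range i)
    rw [← hk₁, hN₀k] at h1
    have h3 := h1.ge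
    have : ((sSup {k : ℕ | ∃ N : Submodule A (B ⧸ xB), N.FG ∧ locLen m N = k} + 1 : ℕ) : ℕ∞) ≤
        (k₁ : ℕ∞) := by
      push_cast
      exact le_trans (by gcongr) h3
    rw [Nat.cast_le] at this
    omega
  obtain ⟨s, hs⟩ := hN₀top ▸ hN₀
  choose l hl using fun z : B ⧸ xB => Submodule.Quotient.mk_surjective xB z
  set L₀ : Submodule A B := Submodule.span A (l '' s)
  have hstep : ∀ y : B, ∃ (w : L₀) (y' : B), y = w + x • y' := by
    intro y
    have hmap : Submodule.span A (s : Set (B ⧸ xB)) ≤ Submodule.map xB.mkQ L₀ := by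
      rw [Submodule.span_le]
      exact fun z hz => ⟨l z, Submodule.subset_span ⟨z, hz, rfl⟩, hl z⟩
    obtain ⟨w, hw, hwy⟩ := hmap (hs.ge (Submodule.mem_top (x := Submodule.Quotient.mk y)))
    obtain ⟨y', hy'⟩ := (Submodule.Quotient.eq xB).1 hwy.symm
    exact ⟨⟨w, hw⟩, y', by rw [show x • y' = y - w from hy']; abel⟩
  -- separatedness
  have hsep : ∀ c : B, (∀ j : ℕ, ∃ z : B, c = x ^ j • z) → c = 0 := by
    intro c hc
    by_contra hc0
    obtain ⟨d, hdP, c', hdc⟩ := exists_base_element (A := A) P.1.asIdeal P.1.isPrime hkA c hc0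
    obtain ⟨ed, hed⟩ := ENat.ne_top_iff_exists.1 (he_fin d hdP)
    obtain ⟨z, hz⟩ := hc (ed + 1)
    set z' : B := z * c'
    have hdz : algebraMap A B d = algebraMap A B (x ^ (ed + 1)) * z' := by
      rw [hdc, ← Algebra.smul_def, ← smul_mul_assoc, ← hz]
    have hz'int : IsIntegral A z' := Algebra.IsIntegral.isIntegral z'
    set S := Algebra.adjoin A {z'}
    set L : Submodule A B := Subalgebra.toSubmodule S
    have hLfg : L.FG := hz'int.fg_adjoin_singleton
    have hD'L : D' ≤ L := by rintro _ ⟨a, rfl⟩; exact S.algebraMap_mem a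
    let mz : L →ₗ[A] L := ((LinearMap.mulRight A z').comp L.subtype).codRestrict L fun w =>
      S.mul_mem w.2 (Algebra.subset_adjoin rfl)
    have hpow : ∀ j : ℕ, locLen m (L ⧸ LinearMap.range (mulA L (x ^ j))) = j * e x := by
      intro j
      induction j with
      | zero =>
        rw [Nat.cast_zero, zero_mul]
        refine locLen_zero m fun w => ⟨1, m.primeCompl.one_mem, ?_⟩
        obtain ⟨w, rfl⟩ := Submodule.Quotient.mk_surjective _ w
        rw [one_smul, Submodule.Quotient.mk_eq_zero]
        exact ⟨w, by simp [mulA]⟩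
      | succ j ih =>
        have heq : mulA L (x ^ (j + 1)) = mulA L x ∘ₗ mulA L (x ^ j) :=
          LinearMap.ext fun w => by
            show x ^ (j + 1) • w = x • (x ^ j • w)
            rw [smul_smul, pow_succ']
        rw [heq, coker_comp m _ _ (mulA_inj L x hxP), ih, hindep L hLfg hD'L x hxP]
        push_cast
        ring
    have heq : mulA L d = mulA L (x ^ (ed + 1)) ∘ₗ mz := LinearMap.ext fun w => Subtype.ext (by
      show d • (w : B) = x ^ (ed + 1) • ((w : B) * z')
      rw [Algebra.smul_def, Algebra.smul_def, hdz]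
      ring)
    have hxjP : x ^ (ed + 1) ∉ P.1.asIdeal := fun h => hxP (P.1.isPrime.mem_of_pow_mem _ h)
    have h1 := coker_comp m _ mz (mulA_inj L _ hxjP)
    rw [← heq, hindep L hLfg hD'L d hdP, hpow, ← hed] at h1
    have hne : Nontrivial (D' ⧸ LinearMap.range (mulA D' x)) := by
      refine Submodule.Quotient.nontrivial_iff.2 fun h => ?_
      obtain ⟨⟨_, a, rfl⟩, ha⟩ := h.ge
        (Submodule.mem_top (x := (⟨1, 1, (algebraMap A B).map_one⟩ : D')))
      have h2 : x • (algebraMap A B a) = 1 := congrArg Subtype.val ha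
      rw [Algebra.smul_def, ← map_mul, ← sub_eq_zero, ← map_one (algebraMap A B), ← map_sub,
        hkA] at h2
      have h3 : x * a - 1 ∈ m := IsLocalRing.le_maximalIdeal P.1.isPrime.ne_top h2
      have h4 := m.sub_mem (m.mul_mem_right a hxm) h3
      rw [sub_sub_cancel] at h4
      exact (IsLocalRing.maximalIdeal.isMaximal A).ne_top ((Ideal.eq_top_iff_one _).2 h4)
    have h2 := one_le_locLen_max (A := A) (D' ⧸ LinearMap.range (mulA D' x))
    have h3 : ((ed + 1 : ℕ) : ℕ∞) ≤ ed := by
      rw [h1]
      refine le_add_left ?_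
      calc ((ed + 1 : ℕ) : ℕ∞) = ((ed + 1 : ℕ) : ℕ∞) * 1 := (mul_one _).symm
        _ ≤ _ := by gcongr
    rw [Nat.cast_le] at h3
    omega
  -- completeness
  obtain ⟨r, w, hw⟩ := Submodule.fg_iff_exists_fin_generating_family.1
    (Submodule.fg_span (R := A) (s.finite_toSet.image l))
  refine ⟨Submodule.fg_iff_exists_fin_generating_family.2 ⟨r, w, eq_top_iff.2 fun y _ => ?_⟩⟩
  have hstep' : ∀ y : B, ∃ (a : Fin r → A) (y' : B), y = (∑ j, a j • w j) + x • y' := by
    intro y
    obtain ⟨v, y', rfl⟩ := hstep y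
    obtain ⟨a, ha⟩ := (Submodule.mem_span_range_iff_exists_fun A).1 (hw.symm ▸ v.2 :
      (v : B) ∈ Submodule.span A (Set.range w))
    exact ⟨a, y', by rw [ha]⟩
  choose a y' hay using hstep'
  let Y : ℕ → B := fun i => y'^[i] y
  let σ : Fin r → ℕ → A := fun j i => ∑ t ∈ Finset.range i, x ^ t * a (Y t) j
  have hY : ∀ i, y = (∑ j, σ j i • w j) + x ^ i • Y i := by
    intro i
    induction i with
    | zero => simp [σ, Y]
    | succ i ih =>
      refine ih.trans ?_
      conv_lhs => rw [hay (Y i)]
      simp only [σ, Finset.sum_range_succ, add_smul, Finset.sum_add_distrib, smul_add,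
        Finset.smul_sum, smul_smul, pow_succ, Y, Function.iterate_succ_apply', add_assoc]
  have hc : ∀ j, ∃ c : A, ∀ i, c - σ j i ∈ m ^ i := by
    intro j
    obtain ⟨c, hc⟩ := IsPrecomplete.prec (I := m) (M := A) inferInstance (f := σ j) (fun {p q} hpq => by
      rw [SModEq.sub_mem, smul_eq_mul, Ideal.mul_top]
      simp only [σ, ← neg_sub (∑ t ∈ Finset.range q, _), neg_mem_iff,
        ← Finset.sum_Ico_eq_sub _ hpq]
      exact Ideal.sum_mem _ fun t ht => Ideal.mul_mem_right _ _
        (Ideal.pow_le_pow_right (Finset.mem_Ico.1 ht).1 (Ideal.pow_mem_pow hxm t)))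
    refine ⟨c, fun i => ?_⟩
    have := SModEq.sub_mem.1 (hc i)
    rw [smul_eq_mul, Ideal.mul_top] at this
    simpa using neg_mem this
  choose c hc using hc
  have hrad : m ≤ (P.1.asIdeal ⊔ Ideal.span {x}).radical := by
    rw [Ideal.radical_eq_sInf]
    exact le_sInf fun p ⟨hle, hp⟩ => (no_prime_above hd P hxP p hp hle).ge
  obtain ⟨t, ht⟩ := Ideal.exists_pow_le_of_le_radical_of_fg hrad (IsNoetherian.noetherian _)
  have hmap : (P.1.asIdeal ⊔ Ideal.span {x}).map (algebraMap A B) ≤
      Ideal.span {algebraMap A B x} := by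
    rw [Ideal.map_sup, Ideal.map_span, Set.image_singleton, sup_le_iff]
    refine ⟨?_, le_rfl⟩
    rw [Ideal.map_le_iff_le_comap]
    intro p hp
    simp [(hkA p).2 hp]
  suffices hy : y - ∑ j, c j • w j = 0 by
    rw [sub_eq_zero.1 hy]
    exact Submodule.sum_mem _ fun j _ => Submodule.smul_mem _ _ (Submodule.subset_span ⟨j, rfl⟩)
  refine hsep _ fun i => ?_
  have hmem : y - ∑ j, c j • w j ∈ Ideal.span {algebraMap A B x ^ i} := by
    have e1 : y - ∑ j, c j • w j = x ^ (max (t * i) i) • Y (max (t * i) i) -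
        ∑ j, (c j - σ j (max (t * i) i)) • w j := by
      simp only [sub_smul, Finset.sum_sub_distrib]
      conv_lhs => rw [hY (max (t * i) i)]
      abel
    rw [e1]
    refine sub_mem ?_ (Ideal.sum_mem _ fun j _ => ?_)
    · rw [Algebra.smul_def, map_pow]
      exact Ideal.mul_mem_right _ _ (Ideal.mem_span_singleton.2 (pow_dvd_pow _ (le_max_right _ _)))
    · rw [Algebra.smul_def, ← Ideal.span_singleton_pow]
      refine Ideal.mul_mem_right _ _ (Ideal.pow_right_mono hmap i ?_)
      rw [← Ideal.map_pow]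
      refine Ideal.mem_map_of_mem _ (Ideal.pow_right_mono ht i ?_)
      rw [← pow_mul]
      exact Ideal.pow_le_pow_right (le_max_left _ _) (hc j _)
  obtain ⟨z, hz⟩ := Ideal.mem_span_singleton'.1 hmem
  exact ⟨z, by rw [← hz, Algebra.smul_def, map_pow, mul_comm]⟩

theorem finite_normalization [IsAdicComplete (IsLocalRing.maximalIdeal A) A] {n : ℕ}
    (hd : ringKrullDim A = (n + 1 : ℕ)) (P : CodimPoints A n) :
    Module.Finite A (integralClosure (A ⧸ P.1.asIdeal) (FractionRing (A ⧸ P.1.asIdeal))) := by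
  set D := A ⧸ P.1.asIdeal
  set K := FractionRing D
  have : Algebra.IsIntegral A D :=
    ⟨fun w => by obtain ⟨a, rfl⟩ := Ideal.Quotient.mk_surjective w; exact isIntegral_algebraMap⟩
  have : Algebra.IsIntegral A (integralClosure D K) := Algebra.IsIntegral.trans D
  have hinjK : Function.Injective (algebraMap D K) := IsFractionRing.injective D K
  refine finite_birational hd P (integralClosure D K) (fun a => ?_) (fun z => ?_)
  · rw [IsScalarTower.algebraMap_apply A D (integralClosure D K), Subtype.ext_iff,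
      ZeroMemClass.coe_zero]
    show algebraMap D K (Ideal.Quotient.mk _ a) = 0 ↔ _
    rw [map_eq_zero_iff _ hinjK, Ideal.Quotient.eq_zero_iff_mem]
  · obtain ⟨b, d, hd'⟩ := IsLocalization.exists_integer_multiple' (nonZeroDivisors D) (z : K)
    obtain ⟨c, hc⟩ := Ideal.Quotient.mk_surjective (b : D)
    obtain ⟨d, rfl⟩ := Ideal.Quotient.mk_surjective d
    refine ⟨c, fun h => nonZeroDivisors.coe_ne_zero b
      (by rw [← hc]; exact Ideal.Quotient.eq_zero_iff_mem.2 h), d, Subtype.ext ?_⟩
    show ((c • z : integralClosure D K) : K) = algebraMap D K (Ideal.Quotient.mk _ d)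
    rw [hd', Algebra.smul_def c z, ← hc, mul_comm (z : K)]
    rfl

/-- A height `k + 1` prime with finite normalisation is rationally trivial. -/
theorem trivial_of_finite_normalization {k : ℕ} (hd : ringKrullDim A = (k + 2 : ℕ))
    (y : Fin (k + 2) → A) (hy : Ideal.span (Set.range y) = IsLocalRing.maximalIdeal A)
    (P : CodimPoints A (k + 1))
    (hfin : Module.Finite A
      (integralClosure (A ⧸ P.1.asIdeal) (FractionRing (A ⧸ P.1.asIdeal)))) :
    Finsupp.single P (1 : ℤ) ∈ rationallyTrivial A k := by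
  classical
  set D := A ⧸ P.1.asIdeal
  set K := FractionRing D
  set B := integralClosure D K
  have : IsNoetherianRing B := IsNoetherianRing.of_finite A B
  have : Ring.DimensionLEOne D := ⟨fun {p} hp hpp => by
    have hle : P.1.asIdeal ≤ p.comap (Ideal.Quotient.mk P.1.asIdeal) := by
      conv_lhs => rw [← Ideal.mk_ker (I := P.1.asIdeal)]
      exact Ideal.comap_mono bot_le
    obtain ⟨d, hdp, hd0⟩ := Submodule.exists_mem_ne_zero_of_ne_bot hp
    obtain ⟨f, rfl⟩ := Ideal.Quotient.mk_surjective d
    have hf : f ∉ P.1.asIdeal := fun h => hd0 (Ideal.Quotient.eq_zero_iff_mem.2 h)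
    have := no_prime_above hd P hf _ inferInstance
      (sup_le hle ((Ideal.span_singleton_le_iff_mem _).2 hdp))
    rw [← Ideal.map_comap_of_surjective _ Ideal.Quotient.mk_surjective p, this]
    refine (Ideal.map_eq_top_or_isMaximal_of_surjective _ Ideal.Quotient.mk_surjective
      (IsLocalRing.maximalIdeal.isMaximal A)).resolve_left fun htop => hpp.ne_top ?_
    rw [← Ideal.map_comap_of_surjective _ Ideal.Quotient.mk_surjective p, this, htop]⟩
  have : IsFractionRing B K := integralClosure.isFractionRing_of_finite_extension K K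
  have : IsIntegrallyClosed B := integralClosure.isIntegrallyClosedOfFiniteExtension K
  have : IsDedekindRing B := {}
  have : IsDedekindDomain B := {}
  refine prime_trivial y hy P (curve_ne_max hd P) B ?_ ?_
  · ext a
    rw [RingHom.mem_ker, IsScalarTower.algebraMap_apply A D B, Subtype.ext_iff,
      ZeroMemClass.coe_zero]
    show algebraMap D K (Ideal.Quotient.mk _ a) = 0 ↔ _
    rw [map_eq_zero_iff _ (IsFractionRing.injective D K), Ideal.Quotient.eq_zero_iff_mem]
  · obtain ⟨n, w, hw⟩ := Module.Finite.exists_fin (R := A) (M := B)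
    obtain ⟨b, hb⟩ := IsLocalization.exist_integer_multiples (nonZeroDivisors D) Finset.univ
      (fun i => (w i : K))
    obtain ⟨c, hc⟩ := Ideal.Quotient.mk_surjective (b : D)
    refine ⟨c, fun h => nonZeroDivisors.coe_ne_zero b
      (by rw [← hc]; exact Ideal.Quotient.eq_zero_iff_mem.2 h), fun z => ?_⟩
    have hspan : (⊤ : Submodule A B) ≤
        (LinearMap.range (Algebra.linearMap A B)).comap (LinearMap.lsmul A B c) := by
      rw [← hw, Submodule.span_le]
      rintro _ ⟨i, rfl⟩
      obtain ⟨d, hd⟩ := hb i (Finset.mem_univ i)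
      obtain ⟨d', rfl⟩ := Ideal.Quotient.mk_surjective d
      refine ⟨d', Subtype.ext ?_⟩
      show algebraMap D K (Ideal.Quotient.mk _ d') = ((c • w i : B) : K)
      rw [hd, Algebra.smul_def, ← hc, Algebra.smul_def c (w i)]
      rfl
    obtain ⟨a, ha⟩ := hspan (Submodule.mem_top (x := z))
    exact ⟨a, ha.symm⟩

end

theorem exact_at_last_term (A : Type u) [CommRing A] [IsRegularLocalRing A] (k : ℕ)
    (hd : ringKrullDim A = (k + 2 : ℕ))
    (h : IsAdicComplete (IsLocalRing.maximalIdeal A) A ∨
      ∀ P : CodimPoints A (k + 1), Module.Finite A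
        (integralClosure (A ⧸ P.1.asIdeal) (FractionRing (A ⧸ P.1.asIdeal)))) :
    rationallyTrivial A k = ⊤ := by
  obtain ⟨y, hy⟩ : ∃ y : Fin (k + 2) → A,
      Ideal.span (Set.range y) = IsLocalRing.maximalIdeal A := by
    have hr := IsRegularLocalRing.spanFinrank_maximalIdeal (R := A)
    rw [hd, Nat.cast_inj] at hr
    have hfg := (IsLocalRing.maximalIdeal A).fg_of_isNoetherianRing
    have hfs := Submodule.FG.finite_generators hfg
    have : Fintype (IsLocalRing.maximalIdeal A).generators := hfs.fintype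
    have hcard : Fintype.card (IsLocalRing.maximalIdeal A).generators = k + 2 := by
      rw [← Nat.card_eq_fintype_card, Nat.card_coe_set_eq, Submodule.FG.generators_ncard hfg, hr]
    refine ⟨fun i => ((Fintype.equivFinOfCardEq hcard).symm i : A), ?_⟩
    rw [show (fun i => ((Fintype.equivFinOfCardEq hcard).symm i : A)) =
      Subtype.val ∘ (Fintype.equivFinOfCardEq hcard).symm from rfl,
      (Fintype.equivFinOfCardEq hcard).symm.surjective.range_comp, Subtype.range_coe]
    exact Submodule.span_generators _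
  have hall : ∀ P : CodimPoints A (k + 1), Finsupp.single P (1 : ℤ) ∈ rationallyTrivial A k := by
    intro P
    refine trivial_of_finite_normalization hd y hy P ?_
    rcases h with h | h
    · exact finite_normalization (n := k + 1) hd P
    · exact h P
  rw [eq_top_iff]
  intro z _
  induction z using Finsupp.induction with
  | zero => exact zero_mem _
  | single_add P n z _ _ ih =>
    refine add_mem ?_ (ih trivial)
    rw [show Finsupp.single P n = n • Finsupp.single P (1 : ℤ) by simp]
    exact AddSubgroup.zsmul_mem _ (hall P) _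

end Vale.Agent.P178
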